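import Mathlib

/-!
Finite product Bernoulli expectations on subsets of a finite set.
-/

namespace Vale.Agent.Lib.P165

open Finset

variable {E : Type*} [DecidableEq E]

/-- Expectation of `f` when each element of `F` is kept independently with probability `p`. -/
noncomputable def Ex (F : Finset E) (p : ℝ) (f : Finset E → ℝ) : ℝ :=
  ∑ ω ∈ F.powerset, p ^ #ω * (1 - p) ^ #(F \ ω) * f ω

@[simp] lemma Ex_empty (p : ℝ) (f : Finset E → ℝ) : Ex (∅ : Finset E) p f = f ∅ := by
  simp [Ex]

lemma Ex_insert {a : E} {F : Finset E} (ha : a ∉ F) (p : ℝ) (f : Finset E → ℝ) :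
    Ex (insert a F) p f = p * Ex F p (fun ω => f (insert a ω)) + (1 - p) * Ex F p f := by
  unfold Ex
  rw [Finset.sum_powerset_insert ha, add_comm, Finset.mul_sum, Finset.mul_sum]
  congr 1
  · apply Finset.sum_congr rfl
    intro ω hω
    have hω' : ω ⊆ F := Finset.mem_powerset.mp hω
    have haω : a ∉ ω := fun h => ha (hω' h)
    have h1 : #(insert a ω) = #ω + 1 := Finset.card_insert_of_notMem haω
    have h2 : insert a F \ insert a ω = F \ ω := by
      ext x
      simp only [Finset.mem_sdiff, Finset.mem_insert]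
      constructor
      · rintro ⟨h1, h2⟩
        rcases h1 with rfl | h1
        · exact absurd (Or.inl rfl) h2
        · exact ⟨h1, fun h => h2 (Or.inr h)⟩
      · rintro ⟨h1, h2⟩
        refine ⟨Or.inr h1, ?_⟩
        rintro (h | h)
        · exact ha (h ▸ h1)
        · exact h2 h
    rw [h1, h2]
    ring
  · apply Finset.sum_congr rfl
    intro ω hω
    have hω' : ω ⊆ F := Finset.mem_powerset.mp hω
    have haω : a ∉ ω := fun h => ha (hω' h)
    have h2 : insert a F \ ω = insert a (F \ ω) := by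
      ext x
      simp only [Finset.mem_sdiff, Finset.mem_insert]
      constructor
      · rintro ⟨h1, h2⟩
        rcases h1 with rfl | h1
        · exact Or.inl rfl
        · exact Or.inr ⟨h1, h2⟩
      · rintro (rfl | ⟨h1, h2⟩)
        · exact ⟨Or.inl rfl, haω⟩
        · exact ⟨Or.inr h1, h2⟩
    have h3 : #(insert a (F \ ω)) = #(F \ ω) + 1 :=
      Finset.card_insert_of_notMem (fun h => ha (Finset.mem_sdiff.mp h).1)
    rw [h2, h3]
    ring

lemma Ex_congr {F : Finset E} {p : ℝ} {f g : Finset E → ℝ}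
    (h : ∀ ω, ω ⊆ F → f ω = g ω) : Ex F p f = Ex F p g := by
  unfold Ex
  apply Finset.sum_congr rfl
  intro ω hω
  rw [h ω (Finset.mem_powerset.mp hω)]

lemma Ex_add (F : Finset E) (p : ℝ) (f g : Finset E → ℝ) :
    Ex F p (fun ω => f ω + g ω) = Ex F p f + Ex F p g := by
  unfold Ex
  rw [← Finset.sum_add_distrib]
  apply Finset.sum_congr rfl
  intro ω _
  ring

lemma Ex_sub (F : Finset E) (p : ℝ) (f g : Finset E → ℝ) :
    Ex F p (fun ω => f ω - g ω) = Ex F p f - Ex F p g := by
  unfold Ex
  rw [← Finset.sum_sub_distrib]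
  apply Finset.sum_congr rfl
  intro ω _
  ring

lemma Ex_const_mul (F : Finset E) (p c : ℝ) (f : Finset E → ℝ) :
    Ex F p (fun ω => c * f ω) = c * Ex F p f := by
  unfold Ex
  rw [Finset.mul_sum]
  apply Finset.sum_congr rfl
  intro ω _
  ring

lemma Ex_mul_const (F : Finset E) (p c : ℝ) (f : Finset E → ℝ) :
    Ex F p (fun ω => f ω * c) = Ex F p f * c := by
  unfold Ex
  rw [Finset.sum_mul]
  apply Finset.sum_congr rfl
  intro ω _
  ring

lemma Ex_sum {ι : Type*} (s : Finset ι) (F : Finset E) (p : ℝ) (f : ι → Finset E → ℝ) :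
    Ex F p (fun ω => ∑ i ∈ s, f i ω) = ∑ i ∈ s, Ex F p (f i) := by
  unfold Ex
  rw [Finset.sum_comm]
  apply Finset.sum_congr rfl
  intro ω _
  rw [Finset.mul_sum]

lemma Ex_one (F : Finset E) (p : ℝ) : Ex F p (fun _ => 1) = 1 := by
  classical
  induction F using Finset.induction_on with
  | empty => simp
  | insert a F ha ih =>
    rw [Ex_insert ha, ih]
    ring

lemma Ex_const (F : Finset E) (p c : ℝ) : Ex F p (fun _ => c) = c := by
  have := Ex_const_mul F p c (fun _ => 1)
  simpa [Ex_one] using this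

lemma wt_nonneg {F ω : Finset E} {p : ℝ} (hp : 0 ≤ p) (hp1 : p ≤ 1) :
    0 ≤ p ^ #ω * (1 - p) ^ #(F \ ω) :=
  mul_nonneg (pow_nonneg hp _) (pow_nonneg (by linarith) _)

lemma Ex_mono {F : Finset E} {p : ℝ} (hp : 0 ≤ p) (hp1 : p ≤ 1) {f g : Finset E → ℝ}
    (h : ∀ ω, ω ⊆ F → f ω ≤ g ω) : Ex F p f ≤ Ex F p g := by
  unfold Ex
  apply Finset.sum_le_sum
  intro ω hω
  exact mul_le_mul_of_nonneg_left (h ω (Finset.mem_powerset.mp hω)) (wt_nonneg hp hp1)

lemma Ex_nonneg {F : Finset E} {p : ℝ} (hp : 0 ≤ p) (hp1 : p ≤ 1) {f : Finset E → ℝ}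
    (h : ∀ ω, ω ⊆ F → 0 ≤ f ω) : 0 ≤ Ex F p f := by
  have := Ex_mono (F := F) hp hp1 (f := fun _ => 0) (g := f) h
  simpa [Ex_const] using this

/-- Splitting a product expectation over a disjoint union. -/
lemma Ex_split (F₁ F₂ : Finset E) (h : Disjoint F₁ F₂) (p : ℝ) (f : Finset E → ℝ) :
    Ex (F₁ ∪ F₂) p f = Ex F₁ p (fun ω₁ => Ex F₂ p (fun ω₂ => f (ω₁ ∪ ω₂))) := by
  induction F₂ using Finset.induction_on generalizing f with
  | empty => simp
  | insert a F₂ ha ih =>
    have h' : Disjoint F₁ F₂ :=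
      Finset.disjoint_of_subset_right (Finset.subset_insert a F₂) h
    have ha1 : a ∉ F₁ := fun h1 =>
      (Finset.disjoint_left.mp h h1) (Finset.mem_insert_self a F₂)
    have ha2 : a ∉ F₁ ∪ F₂ := by
      simp [ha, ha1]
    have e1 : F₁ ∪ insert a F₂ = insert a (F₁ ∪ F₂) := by
      ext x; simp only [Finset.mem_union, Finset.mem_insert]; tauto
    rw [e1, Ex_insert ha2, ih h', ih h']
    rw [← Ex_const_mul, ← Ex_const_mul, ← Ex_add]
    apply Ex_congr
    intro ω₁ _
    rw [Ex_insert ha]
    congr 3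
    ext ω₂
    congr 1
    ext x; simp only [Finset.mem_union, Finset.mem_insert]; tauto

/-- Independence of functions of two disjoint blocks. -/
lemma Ex_indep (F₁ F₂ : Finset E) (h : Disjoint F₁ F₂) (p : ℝ) (g₁ g₂ : Finset E → ℝ) :
    Ex (F₁ ∪ F₂) p (fun ω => g₁ (ω ∩ F₁) * g₂ (ω ∩ F₂)) = Ex F₁ p g₁ * Ex F₂ p g₂ := by
  rw [Ex_split F₁ F₂ h]
  have : ∀ ω₁, ω₁ ⊆ F₁ →
      Ex F₂ p (fun ω₂ => g₁ ((ω₁ ∪ ω₂) ∩ F₁) * g₂ ((ω₁ ∪ ω₂) ∩ F₂)) = g₁ ω₁ * Ex F₂ p g₂ := by
    intro ω₁ hω₁
    rw [← Ex_const_mul]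
    apply Ex_congr
    intro ω₂ hω₂
    have e1 : (ω₁ ∪ ω₂) ∩ F₁ = ω₁ := by
      ext x
      simp only [Finset.mem_inter, Finset.mem_union]
      constructor
      · rintro ⟨h1 | h1, h2⟩
        · exact h1
        · exact absurd (hω₂ h1) (Finset.disjoint_left.mp h h2)
      · intro h1
        exact ⟨Or.inl h1, hω₁ h1⟩
    have e2 : (ω₁ ∪ ω₂) ∩ F₂ = ω₂ := by
      ext x
      simp only [Finset.mem_inter, Finset.mem_union]
      constructor
      · rintro ⟨h1 | h1, h2⟩
        · exact absurd h2 (Finset.disjoint_left.mp h (hω₁ h1))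
        · exact h1
      · intro h1
        exact ⟨Or.inr h1, hω₂ h1⟩
    rw [e1, e2]
  rw [Ex_congr this, Ex_mul_const]

/-- A function of the `F₁` block has the same expectation on `F₁ ∪ F₂`. -/
lemma Ex_restrict (F₁ F₂ : Finset E) (h : Disjoint F₁ F₂) (p : ℝ) (g : Finset E → ℝ) :
    Ex (F₁ ∪ F₂) p (fun ω => g (ω ∩ F₁)) = Ex F₁ p g := by
  have := Ex_indep F₁ F₂ h p g (fun _ => 1)
  simpa [Ex_one] using this

/-- Edge `e ∈ F` open, function of the rest. -/
lemma Ex_open {e : E} {F : Finset E} (he : e ∈ F) (p : ℝ) (g : Finset E → ℝ) :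
    Ex F p (fun ω => (if e ∈ ω then 1 else 0) * g (ω.erase e)) = p * Ex (F.erase e) p g := by
  have hF : F = insert e (F.erase e) := (Finset.insert_erase he).symm
  conv_lhs => rw [hF]
  rw [Ex_insert (Finset.notMem_erase e F)]
  have h1 : Ex (F.erase e) p (fun ω => (if e ∈ insert e ω then 1 else 0) * g ((insert e ω).erase e))
      = Ex (F.erase e) p g := by
    apply Ex_congr
    intro ω hω
    have : e ∉ ω := fun h => (Finset.notMem_erase e F) (hω h)
    simp [Finset.erase_insert this]
  have h2 : Ex (F.erase e) p (fun ω => (if e ∈ ω then 1 else 0) * g (ω.erase e)) = 0 := by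
    have h3 : Ex (F.erase e) p (fun ω => (if e ∈ ω then 1 else 0) * g (ω.erase e))
        = Ex (F.erase e) p (fun _ => 0) := by
      apply Ex_congr
      intro ω hω
      have : e ∉ ω := fun h => (Finset.notMem_erase e F) (hω h)
      simp [this]
    rw [h3, Ex_const]
  rw [h1, h2]
  ring

/-- Edge `e ∈ F` closed, function of the rest. -/
lemma Ex_closed {e : E} {F : Finset E} (he : e ∈ F) (p : ℝ) (g : Finset E → ℝ) :
    Ex F p (fun ω => (if e ∈ ω then 0 else 1) * g (ω.erase e)) = (1 - p) * Ex (F.erase e) p g := by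
  have hF : F = insert e (F.erase e) := (Finset.insert_erase he).symm
  conv_lhs => rw [hF]
  rw [Ex_insert (Finset.notMem_erase e F)]
  have h1 : Ex (F.erase e) p (fun ω => (if e ∈ insert e ω then 0 else 1) * g ((insert e ω).erase e))
      = 0 := by
    have h3 : Ex (F.erase e) p (fun ω => (if e ∈ insert e ω then 0 else 1) * g ((insert e ω).erase e))
        = Ex (F.erase e) p (fun _ => 0) := by
      apply Ex_congr
      intro ω _
      simp
    rw [h3, Ex_const]
  have h2 : Ex (F.erase e) p (fun ω => (if e ∈ ω then 0 else 1) * g (ω.erase e))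
      = Ex (F.erase e) p g := by
    apply Ex_congr
    intro ω hω
    have : e ∉ ω := fun h => (Finset.notMem_erase e F) (hω h)
    simp [this]
  rw [h1, h2]
  ring

/-- Full set `R ⊆ F` open, function of the rest. -/
lemma Ex_all_open {R F : Finset E} (hR : R ⊆ F) (p : ℝ) (g : Finset E → ℝ) :
    Ex F p (fun ω => (if R ⊆ ω then 1 else 0) * g (ω \ R)) = p ^ #R * Ex (F \ R) p g := by
  induction R using Finset.induction_on generalizing F g with
  | empty => simp
  | insert a R ha ih =>
    have haF : a ∈ F := hR (Finset.mem_insert_self a R)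
    have hR' : R ⊆ F.erase a := by
      intro x hx
      refine Finset.mem_erase.mpr ⟨?_, hR (Finset.mem_insert_of_mem hx)⟩
      rintro rfl
      exact ha hx
    have e1 : ∀ ω : Finset E, (if insert a R ⊆ ω then (1 : ℝ) else 0) * g (ω \ insert a R)
        = (if a ∈ ω then 1 else 0) *
          ((if R ⊆ ω.erase a then 1 else 0) * g ((ω.erase a) \ R)) := by
      intro ω
      have e2 : ω \ insert a R = (ω.erase a) \ R := by
        ext x
        simp only [Finset.mem_sdiff, Finset.mem_insert, Finset.mem_erase]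
        tauto
      rw [e2]
      by_cases h1 : a ∈ ω
      · have : insert a R ⊆ ω ↔ R ⊆ ω.erase a := by
          constructor
          · intro h x hx
            refine Finset.mem_erase.mpr ⟨?_, h (Finset.mem_insert_of_mem hx)⟩
            rintro rfl
            exact ha hx
          · intro h x hx
            rcases Finset.mem_insert.mp hx with rfl | hx
            · exact h1
            · exact (Finset.mem_erase.mp (h hx)).2
        simp [h1, this]
      · have : ¬ insert a R ⊆ ω := fun h => h1 (h (Finset.mem_insert_self a R))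
        simp [h1, this]
    simp_rw [e1]
    rw [Ex_open haF p (fun ω => (if R ⊆ ω then 1 else 0) * g (ω \ R)), ih hR' g]
    have e3 : F.erase a \ R = F \ insert a R := by
      ext x
      simp only [Finset.mem_sdiff, Finset.mem_erase, Finset.mem_insert]
      tauto
    rw [e3, Finset.card_insert_of_notMem ha]
    ring

/-- Monotone function: expectation on a smaller block is no larger. -/
lemma Ex_sdiff_le_of_mono {R F : Finset E} (hR : R ⊆ F) {p : ℝ} (hp : 0 ≤ p) (hp1 : p ≤ 1)
    {g : Finset E → ℝ} (hg : ∀ ω ω', ω ⊆ ω' → g ω ≤ g ω') :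
    Ex (F \ R) p g ≤ Ex F p g := by
  have hd : Disjoint (F \ R) R := Finset.sdiff_disjoint
  have hu : (F \ R) ∪ R = F := Finset.sdiff_union_of_subset hR
  conv_rhs => rw [← hu]
  rw [Ex_split _ _ hd]
  apply Ex_mono hp hp1
  intro ω₁ _
  have := Ex_mono (F := R) hp hp1 (f := fun _ => g ω₁) (g := fun ω₂ => g (ω₁ ∪ ω₂))
    (fun ω₂ _ => hg _ _ Finset.subset_union_left)
  simpa [Ex_const] using this

/-- The Margulis-Russo derivative formula. -/
lemma Ex_hasDerivAt (F : Finset E) (f : Finset E → ℝ) (p : ℝ) :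
    HasDerivAt (fun q => Ex F q f)
      (∑ e ∈ F, Ex (F.erase e) p (fun ω => f (insert e ω) - f ω)) p := by
  induction F using Finset.induction_on generalizing f with
  | empty =>
    simp only [Ex_empty, Finset.sum_empty]
    exact hasDerivAt_const p _
  | insert a F ha ih =>
    have h1 := ih (fun ω => f (insert a ω))
    have h2 := ih f
    have h3 : HasDerivAt (fun q => q * Ex F q (fun ω => f (insert a ω)) + (1 - q) * Ex F q f)
        ((1 * Ex F p (fun ω => f (insert a ω)) +
            p * ∑ e ∈ F, Ex (F.erase e) p (fun ω => f (insert a (insert e ω)) - f (insert a ω)))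
          + ((-1) * Ex F p f + (1 - p) * ∑ e ∈ F, Ex (F.erase e) p (fun ω => f (insert e ω) - f ω)))
        p := by
      have h4 : HasDerivAt (fun q : ℝ => 1 - q) (-1) p := by
        simpa using (hasDerivAt_id p).const_sub 1
      exact ((hasDerivAt_id p).mul h1).add (h4.mul h2)
    have h5 : (fun q => Ex (insert a F) q f)
        = fun q => q * Ex F q (fun ω => f (insert a ω)) + (1 - q) * Ex F q f := by
      ext q
      exact Ex_insert ha q f
    rw [h5]
    convert h3 using 1
    rw [Finset.sum_insert ha]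
    have e1 : (insert a F).erase a = F := Finset.erase_insert ha
    rw [e1]
    have e2 : ∀ e ∈ F, Ex ((insert a F).erase e) p (fun ω => f (insert e ω) - f ω)
        = p * Ex (F.erase e) p (fun ω => f (insert a (insert e ω)) - f (insert a ω))
          + (1 - p) * Ex (F.erase e) p (fun ω => f (insert e ω) - f ω) := by
      intro e he
      have hne : a ≠ e := fun h => ha (h ▸ he)
      rw [Finset.erase_insert_of_ne hne]
      rw [Ex_insert (fun h => ha (Finset.mem_of_mem_erase h))]
      have e3 : (fun ω => f (insert e (insert a ω)) - f (insert a ω))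
          = (fun ω => f (insert a (insert e ω)) - f (insert a ω)) := by
        funext ω
        rw [Finset.insert_comm]
      rw [e3]
    rw [Finset.sum_congr rfl e2, Finset.sum_add_distrib, Ex_sub, Finset.mul_sum, Finset.mul_sum]
    ring

end Vale.Agent.Lib.P165
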