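import Vale.Agent.Lib.P165.Bern

/-!
Clusters of a finite edge configuration; the double-counting identity.
-/

namespace Vale.Agent.Lib.P165

open Finset SimpleGraph
open scoped Classical

variable {V : Type*}

/-- `x` and `y` are joined by edges of `ω`. -/
def Conn (ω : Finset (Sym2 V)) (x y : V) : Prop :=
  (fromEdgeSet (ω : Set (Sym2 V))).Reachable x y

lemma Conn.refl (ω : Finset (Sym2 V)) (x : V) : Conn ω x x := Reachable.refl x

lemma Conn.symm {ω : Finset (Sym2 V)} {x y : V} (h : Conn ω x y) : Conn ω y x :=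
  Reachable.symm h

lemma Conn.trans {ω : Finset (Sym2 V)} {x y z : V} (h : Conn ω x y) (h' : Conn ω y z) :
    Conn ω x z := Reachable.trans h h'

lemma Conn.mono {ω ω' : Finset (Sym2 V)} (h : ω ⊆ ω') {x y : V} (hc : Conn ω x y) :
    Conn ω' x y :=
  Reachable.mono (fromEdgeSet_mono (by exact_mod_cast h)) hc

lemma Conn.of_mem {ω : Finset (Sym2 V)} {x y : V} (h : s(x, y) ∈ ω) : Conn ω x y := by
  by_cases hxy : x = y
  · subst hxy
    exact Conn.refl ω x
  · exact Adj.reachable ((fromEdgeSet_adj _).mpr ⟨by simpa using h, hxy⟩)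

lemma Conn.induct {ω : Finset (Sym2 V)} {S : V → Prop}
    (h : ∀ a b, s(a, b) ∈ ω → S a → S b) {x y : V} (hxy : Conn ω x y) (hx : S x) : S y := by
  obtain ⟨w⟩ := hxy
  induction w with
  | nil => exact hx
  | cons hadj w ih =>
    exact ih (h _ _ (by simpa using ((fromEdgeSet_adj _).mp hadj).1) hx)

lemma conn_of_mem_erase {ω : Finset (Sym2 V)} {o x y v : V} (hc : Conn ω o v) :
    Conn (ω.erase s(x, y)) o v ∨ Conn (ω.erase s(x, y)) o x ∨ Conn (ω.erase s(x, y)) o y := by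
  refine Conn.induct (S := fun v => Conn (ω.erase s(x, y)) o v ∨ Conn (ω.erase s(x, y)) o x ∨
    Conn (ω.erase s(x, y)) o y) ?_ hc (Or.inl (Conn.refl _ _))
  intro a b hab ha
  by_cases hne : s(a, b) = s(x, y)
  · rcases ha with ha | ha
    · rcases Sym2.eq_iff.mp hne with ⟨rfl, rfl⟩ | ⟨rfl, rfl⟩
      · exact Or.inr (Or.inl ha)
      · exact Or.inr (Or.inr ha)
    · exact Or.inr ha
  · rcases ha with ha | ha
    · exact Or.inl (ha.trans (Conn.of_mem (Finset.mem_erase.mpr ⟨hne, hab⟩)))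
    · exact Or.inr ha

/-- Indicator that `x` is in the cluster of `o` and `y` is not. -/
noncomputable def al (ω : Finset (Sym2 V)) (o x y : V) : ℝ :=
  if Conn ω o x ∧ ¬ Conn ω o y then 1 else 0

/-- Indicator that `x` and `y` are both in the cluster of `o`. -/
noncomputable def be (ω : Finset (Sym2 V)) (o x y : V) : ℝ :=
  if Conn ω o x ∧ Conn ω o y then 1 else 0

lemma al_nonneg (ω : Finset (Sym2 V)) (o x y : V) : 0 ≤ al ω o x y := by
  unfold al; split_ifs <;> norm_num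

lemma be_nonneg (ω : Finset (Sym2 V)) (o x y : V) : 0 ≤ be ω o x y := by
  unfold be; split_ifs <;> norm_num

lemma conn_iff_of_mem {ω : Finset (Sym2 V)} {o x y : V} (h : s(x, y) ∈ ω) :
    (Conn ω o x ↔ Conn (ω.erase s(x, y)) o x ∨ Conn (ω.erase s(x, y)) o y) ∧
    (Conn ω o y ↔ Conn (ω.erase s(x, y)) o x ∨ Conn (ω.erase s(x, y)) o y) := by
  have hsub : ω.erase s(x, y) ⊆ ω := Finset.erase_subset _ _
  have hxy : Conn ω x y := Conn.of_mem h
  constructor
  · constructor
    · intro hc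
      rcases conn_of_mem_erase (x := x) (y := y) hc with h1 | h1
      · exact Or.inl h1
      · exact h1
    · rintro (h1 | h1)
      · exact h1.mono hsub
      · exact (h1.mono hsub).trans hxy.symm
  · constructor
    · intro hc
      rcases conn_of_mem_erase (x := x) (y := y) hc with h1 | h1
      · exact Or.inr h1
      · exact h1
    · rintro (h1 | h1)
      · exact (h1.mono hsub).trans hxy
      · exact h1.mono hsub

lemma be_eq (ω : Finset (Sym2 V)) (o x y : V) :
    be ω o x y = be (ω.erase s(x, y)) o x y + (if s(x, y) ∈ ω then 1 else 0) *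
      (al (ω.erase s(x, y)) o x y + al (ω.erase s(x, y)) o y x) := by
  by_cases h : s(x, y) ∈ ω
  · obtain ⟨h1, h2⟩ := conn_iff_of_mem (o := o) h
    unfold be al
    rw [if_pos h]
    by_cases hA : Conn (ω.erase s(x, y)) o x <;> by_cases hB : Conn (ω.erase s(x, y)) o y <;>
      simp [h1, h2, hA, hB]
  · rw [Finset.erase_eq_of_notMem h]
    simp [h]

lemma al_eq (ω : Finset (Sym2 V)) (o x y : V) :
    al ω o x y = (if s(x, y) ∈ ω then 0 else 1) * al (ω.erase s(x, y)) o x y := by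
  by_cases h : s(x, y) ∈ ω
  · obtain ⟨h1, h2⟩ := conn_iff_of_mem (o := o) h
    unfold al
    rw [if_pos h]
    by_cases hA : Conn (ω.erase s(x, y)) o x <;> by_cases hB : Conn (ω.erase s(x, y)) o y <;>
      simp [h1, h2, hA, hB]
  · rw [Finset.erase_eq_of_notMem h]
    simp [h]

/-- Ordered adjacent pairs inside `T`. -/
noncomputable def prs (G : SimpleGraph V) (T : Finset V) : Finset (V × V) :=
  (T ×ˢ T).filter (fun q => G.Adj q.1 q.2)

lemma mem_prs {G : SimpleGraph V} {T : Finset V} {q : V × V} :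
    q ∈ prs G T ↔ q.1 ∈ T ∧ q.2 ∈ T ∧ G.Adj q.1 q.2 := by
  simp [prs, and_assoc]

/-- Edges of `G` with both endpoints in `T`. -/
noncomputable def EIn (G : SimpleGraph V) (T : Finset V) : Finset (Sym2 V) :=
  (prs G T).image (fun q => s(q.1, q.2))

lemma mem_EIn {G : SimpleGraph V} {T : Finset V} {e : Sym2 V} :
    e ∈ EIn G T ↔ ∃ x y, x ∈ T ∧ y ∈ T ∧ G.Adj x y ∧ s(x, y) = e := by
  simp only [EIn, Finset.mem_image, mem_prs, Prod.exists]
  constructor
  · rintro ⟨x, y, ⟨h1, h2, h3⟩, h4⟩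
    exact ⟨x, y, h1, h2, h3, h4⟩
  · rintro ⟨x, y, h1, h2, h3, h4⟩
    exact ⟨x, y, ⟨h1, h2, h3⟩, h4⟩

lemma mem_EIn_of_prs {G : SimpleGraph V} {T : Finset V} {q : V × V} (hq : q ∈ prs G T) :
    s(q.1, q.2) ∈ EIn G T :=
  Finset.mem_image_of_mem _ hq

lemma mem_of_conn_EIn {G : SimpleGraph V} {T : Finset V} {ω : Finset (Sym2 V)}
    (hω : ω ⊆ EIn G T) {o x : V} (ho : o ∈ T) (h : Conn ω o x) : x ∈ T := by
  refine Conn.induct (S := fun v => v ∈ T) ?_ h ho
  intro a b hab ha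
  obtain ⟨x, y, hx, hy, -, e⟩ := mem_EIn.mp (hω hab)
  rcases Sym2.eq_iff.mp e with ⟨rfl, rfl⟩ | ⟨rfl, rfl⟩
  · exact hy
  · exact hx

/-- The cluster of `o` inside `T`. -/
noncomputable def Cl (T : Finset V) (o : V) (ω : Finset (Sym2 V)) : Finset V :=
  T.filter (fun x => Conn ω o x)

set_option linter.unusedSectionVars false

variable (G : SimpleGraph V) [G.LocallyFinite]

/-- Number of edges from the cluster of `o` leaving `T`. -/
noncomputable def Mc (T : Finset V) (o : V) (ω : Finset (Sym2 V)) : ℝ :=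
  ∑ x ∈ T, ∑ y ∈ G.neighborFinset x, if Conn ω o x ∧ y ∉ T then 1 else 0

lemma sum_prs (T : Finset V) (g : V → V → ℝ) :
    ∑ q ∈ prs G T, g q.1 q.2 = ∑ x ∈ T, ∑ y ∈ G.neighborFinset x, if y ∈ T then g x y else 0 := by
  unfold prs
  rw [Finset.sum_filter, Finset.sum_product]
  apply Finset.sum_congr rfl
  intro x _
  rw [Finset.sum_ite_mem]
  have : G.neighborFinset x ∩ T = T.filter (fun y => G.Adj x y) := by
    ext y
    simp [and_comm]
  rw [this, Finset.sum_filter]

variable {G}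

lemma count_id {d : ℕ} (hd : G.IsRegularOfDegree d) (T : Finset V) (o : V)
    (ω : Finset (Sym2 V)) :
    (d : ℝ) * (#(Cl T o ω) : ℝ) = ∑ q ∈ prs G T, be ω o q.1 q.2 + ∑ q ∈ prs G T, al ω o q.1 q.2
      + Mc G T o ω := by
  have h1 : (d : ℝ) * (#(Cl T o ω) : ℝ)
      = ∑ x ∈ T, ∑ y ∈ G.neighborFinset x, if Conn ω o x then (1 : ℝ) else 0 := by
    unfold Cl
    rw [Finset.card_filter]
    push_cast
    rw [Finset.mul_sum]
    apply Finset.sum_congr rfl
    intro x _
    rw [Finset.sum_const, nsmul_eq_mul, G.card_neighborFinset_eq_degree, hd x]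
  rw [h1, sum_prs G T (fun x y => be ω o x y), sum_prs G T (fun x y => al ω o x y)]
  unfold Mc
  rw [← Finset.sum_add_distrib, ← Finset.sum_add_distrib]
  apply Finset.sum_congr rfl
  intro x _
  rw [← Finset.sum_add_distrib, ← Finset.sum_add_distrib]
  apply Finset.sum_congr rfl
  intro y _
  unfold be al
  by_cases hx : Conn ω o x <;> by_cases hy : y ∈ T <;> by_cases hy' : Conn ω o y <;> simp [hx, hy, hy']

/-- Deleting `e` from a block does not change the expectation of a function of the rest. -/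
lemma Ex_erase {E : Type*} [DecidableEq E] {e : E} {F : Finset E} (he : e ∈ F) (p : ℝ)
    (g : Finset E → ℝ) : Ex F p (fun ω => g (ω.erase e)) = Ex (F.erase e) p g := by
  have h1 := Ex_open he p g
  have h2 := Ex_closed he p g
  have h3 : Ex F p (fun ω => g (ω.erase e))
      = Ex F p (fun ω => (if e ∈ ω then 1 else 0) * g (ω.erase e))
        + Ex F p (fun ω => (if e ∈ ω then 0 else 1) * g (ω.erase e)) := by
    rw [← Ex_add]
    apply Ex_congr
    intro ω _
    by_cases h : e ∈ ω <;> simp [h]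
  rw [h3, h1, h2]
  ring

lemma prs_swap_sum (T : Finset V) (g : V × V → ℝ) :
    ∑ q ∈ prs G T, g q.swap = ∑ q ∈ prs G T, g q := by
  apply Finset.sum_nbij' Prod.swap Prod.swap
  · intro q hq
    obtain ⟨h1, h2, h3⟩ := mem_prs.mp hq
    exact mem_prs.mpr ⟨h2, h1, h3.symm⟩
  · intro q hq
    obtain ⟨h1, h2, h3⟩ := mem_prs.mp hq
    exact mem_prs.mpr ⟨h2, h1, h3.symm⟩
  · intro q _
    simp
  · intro q _
    simp
  · intro q _
    rfl

/-- `aa`: expectation of `al` with the edge of the pair deleted. -/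
noncomputable def aa (G : SimpleGraph V) (T : Finset V) (o : V) (p : ℝ) (q : V × V) : ℝ :=
  Ex ((EIn G T).erase s(q.1, q.2)) p (fun ω => al ω o q.1 q.2)

/-- `bb`: expectation of `be` with the edge of the pair deleted. -/
noncomputable def bb (G : SimpleGraph V) (T : Finset V) (o : V) (p : ℝ) (q : V × V) : ℝ :=
  Ex ((EIn G T).erase s(q.1, q.2)) p (fun ω => be ω o q.1 q.2)

lemma Ex_be_sum (T : Finset V) (o : V) (p : ℝ) :
    Ex (EIn G T) p (fun ω => ∑ q ∈ prs G T, be ω o q.1 q.2)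
      = ∑ q ∈ prs G T, bb G T o p q + 2 * p * ∑ q ∈ prs G T, aa G T o p q := by
  rw [Ex_sum]
  have h1 : ∀ q ∈ prs G T, Ex (EIn G T) p (fun ω => be ω o q.1 q.2)
      = bb G T o p q + p * aa G T o p q + p * aa G T o p q.swap := by
    intro q hq
    have he := mem_EIn_of_prs hq
    have e1 : (fun ω => be ω o q.1 q.2) = fun ω =>
        be (ω.erase s(q.1, q.2)) o q.1 q.2 + (if s(q.1, q.2) ∈ ω then 1 else 0) *
          (al (ω.erase s(q.1, q.2)) o q.1 q.2 + al (ω.erase s(q.1, q.2)) o q.2 q.1) := by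
      funext ω
      exact be_eq ω o q.1 q.2
    rw [e1, Ex_add, Ex_erase he p (fun ω => be ω o q.1 q.2),
      Ex_open he p (fun ω => al ω o q.1 q.2 + al ω o q.2 q.1), Ex_add]
    unfold bb aa
    simp only [Prod.fst_swap, Prod.snd_swap]
    rw [Sym2.eq_swap (a := q.2) (b := q.1)]
    ring
  rw [Finset.sum_congr rfl h1, Finset.sum_add_distrib, Finset.sum_add_distrib, ← Finset.mul_sum,
    ← Finset.mul_sum, prs_swap_sum T (fun q => aa G T o p q)]
  ring

lemma Ex_al_sum (T : Finset V) (o : V) (p : ℝ) :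
    Ex (EIn G T) p (fun ω => ∑ q ∈ prs G T, al ω o q.1 q.2)
      = (1 - p) * ∑ q ∈ prs G T, aa G T o p q := by
  rw [Ex_sum, Finset.mul_sum]
  apply Finset.sum_congr rfl
  intro q hq
  have he := mem_EIn_of_prs hq
  have e1 : (fun ω => al ω o q.1 q.2) = fun ω =>
      (if s(q.1, q.2) ∈ ω then 0 else 1) * al (ω.erase s(q.1, q.2)) o q.1 q.2 := by
    funext ω
    exact al_eq ω o q.1 q.2
  rw [e1, Ex_closed he p (fun ω => al ω o q.1 q.2)]
  rfl

/-- The number of open bridges of the cluster. -/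
noncomputable def Br (G : SimpleGraph V) (T : Finset V) (o : V) (ω : Finset (Sym2 V)) : ℝ :=
  ∑ q ∈ prs G T, (if s(q.1, q.2) ∈ ω then 1 else 0) * al (ω.erase s(q.1, q.2)) o q.1 q.2

lemma Ex_Br (T : Finset V) (o : V) (p : ℝ) :
    Ex (EIn G T) p (Br G T o) = p * ∑ q ∈ prs G T, aa G T o p q := by
  unfold Br
  rw [Ex_sum, Finset.mul_sum]
  apply Finset.sum_congr rfl
  intro q hq
  exact Ex_open (mem_EIn_of_prs hq) p (fun ω => al ω o q.1 q.2)

/-- Injectivity of the far endpoint of a bridge. -/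
lemma bridge_far_inj {ω : Finset (Sym2 V)} {o x x' y : V} (he : s(x, y) ∈ ω) (he' : s(x', y) ∈ ω)
    (h1 : Conn (ω.erase s(x, y)) o x) (h2 : ¬ Conn (ω.erase s(x, y)) o y)
    (h2' : ¬ Conn (ω.erase s(x', y)) o y) : x = x' := by
  by_contra hne
  apply h2'
  have hS : Conn (ω.erase s(x, y)) o x ∧ Conn (ω.erase s(x', y)) o x := by
    refine Conn.induct (S := fun v => Conn (ω.erase s(x, y)) o v ∧ Conn (ω.erase s(x', y)) o v)
      ?_ h1 ⟨Conn.refl _ _, Conn.refl _ _⟩
    intro a b hab ha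
    have hab' : s(a, b) ∈ ω := Finset.mem_of_mem_erase hab
    have hb : Conn (ω.erase s(x, y)) o b := ha.1.trans (Conn.of_mem hab)
    refine ⟨hb, ha.2.trans (Conn.of_mem (Finset.mem_erase.mpr ⟨?_, hab'⟩))⟩
    intro h
    rcases Sym2.eq_iff.mp h with ⟨_, rfl⟩ | ⟨rfl, _⟩
    · exact h2 hb
    · exact h2 ha.1
  have hne' : s(x, y) ≠ s(x', y) := by
    intro h
    rcases Sym2.eq_iff.mp h with ⟨h3, _⟩ | ⟨h3, h4⟩
    · exact hne h3
    · exact hne (h3.trans h4)
  exact hS.2.trans (Conn.of_mem (Finset.mem_erase.mpr ⟨hne', he⟩))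

lemma Br_add_one_le {T : Finset V} {o : V} (ho : o ∈ T) (ω : Finset (Sym2 V)) :
    Br G T o ω + 1 ≤ (#(Cl T o ω) : ℝ) := by
  have h1 : Br G T o ω = (#((prs G T).filter (fun q => s(q.1, q.2) ∈ ω ∧
      Conn (ω.erase s(q.1, q.2)) o q.1 ∧ ¬ Conn (ω.erase s(q.1, q.2)) o q.2)) : ℝ) := by
    unfold Br
    rw [Finset.card_filter]
    push_cast
    apply Finset.sum_congr rfl
    intro q _
    unfold al
    by_cases h1 : s(q.1, q.2) ∈ ω <;>
      by_cases h2 : Conn (ω.erase s(q.1, q.2)) o q.1 <;>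
      by_cases h3 : Conn (ω.erase s(q.1, q.2)) o q.2 <;> simp [h1, h2, h3]
  have h2 : #((prs G T).filter (fun q => s(q.1, q.2) ∈ ω ∧
      Conn (ω.erase s(q.1, q.2)) o q.1 ∧ ¬ Conn (ω.erase s(q.1, q.2)) o q.2))
      ≤ #((Cl T o ω).erase o) := by
    apply Finset.card_le_card_of_injOn (fun q => q.2)
    · intro q hq
      have hq' := Finset.mem_coe.mp hq
      obtain ⟨h3, h4, h5, h6⟩ := Finset.mem_filter.mp hq'
      obtain ⟨_, h8, _⟩ := mem_prs.mp h3
      refine Finset.mem_coe.mpr (Finset.mem_erase.mpr ⟨?_, Finset.mem_filter.mpr ⟨h8, ?_⟩⟩)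
      · intro h
        apply h6
        have h' : q.2 = o := h
        rw [h']
        exact Conn.refl _ _
      · exact (h5.mono (Finset.erase_subset _ _)).trans (Conn.of_mem h4)
    · intro q hq q' hq' hqq
      have h3 := Finset.mem_filter.mp (Finset.mem_coe.mp hq)
      have h4 := Finset.mem_filter.mp (Finset.mem_coe.mp hq')
      have hqq' : q.2 = q'.2 := hqq
      have h5 : q.1 = q'.1 := by
        obtain ⟨x, y⟩ := q
        obtain ⟨x', y'⟩ := q'
        simp only at hqq' h3 h4 ⊢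
        subst hqq'
        exact bridge_far_inj h3.2.1 h4.2.1 h3.2.2.1 h3.2.2.2 h4.2.2.2
      exact Prod.ext h5 hqq'
  have h3 : o ∈ Cl T o ω := Finset.mem_filter.mpr ⟨ho, Conn.refl _ _⟩
  have h4 : #((Cl T o ω).erase o) + 1 = #(Cl T o ω) := Finset.card_erase_add_one h3
  rw [h1]
  have h5 : (#((prs G T).filter (fun q => s(q.1, q.2) ∈ ω ∧
      Conn (ω.erase s(q.1, q.2)) o q.1 ∧ ¬ Conn (ω.erase s(q.1, q.2)) o q.2)) : ℝ)
      ≤ (#((Cl T o ω).erase o) : ℝ) := by exact_mod_cast h2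
  have h6 : (#((Cl T o ω).erase o) : ℝ) + 1 = (#(Cl T o ω) : ℝ) := by exact_mod_cast h4
  linarith

/-- Expected cluster size. -/
noncomputable def chi (G : SimpleGraph V) (T : Finset V) (o : V) (p : ℝ) : ℝ :=
  Ex (EIn G T) p (fun ω => (#(Cl T o ω) : ℝ))

/-- First consequence of the double count: the identity for the expected boundary. -/
theorem phi_identity {d : ℕ} (hd : G.IsRegularOfDegree d) {T : Finset V} {o : V} (ho : o ∈ T)
    {p : ℝ} (hp : 0 ≤ p) (hp1 : p ≤ 1) :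
    p * (d : ℝ) * chi G T o p - p * ∑ q ∈ prs G T, bb G T o p q - (1 + p) * (chi G T o p - 1)
      ≤ p * Ex (EIn G T) p (Mc G T o) := by
  have h0 : Ex (EIn G T) p (fun ω => (d : ℝ) * (#(Cl T o ω) : ℝ))
      = Ex (EIn G T) p (fun ω => ∑ q ∈ prs G T, be ω o q.1 q.2)
        + Ex (EIn G T) p (fun ω => ∑ q ∈ prs G T, al ω o q.1 q.2)
        + Ex (EIn G T) p (Mc G T o) := by
    rw [← Ex_add, ← Ex_add]
    apply Ex_congr
    intro ω _
    exact count_id hd T o ω
  rw [Ex_const_mul, Ex_be_sum, Ex_al_sum] at h0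
  have h1 : Ex (EIn G T) p (Br G T o) + 1 ≤ chi G T o p := by
    have := Ex_mono (F := EIn G T) hp hp1 (f := fun ω => Br G T o ω + 1)
      (g := fun ω => (#(Cl T o ω) : ℝ)) (fun ω _ => Br_add_one_le ho ω)
    rw [Ex_add, Ex_const] at this
    exact this
  rw [Ex_Br] at h1
  change (d : ℝ) * chi G T o p = _ at h0
  set A := ∑ q ∈ prs G T, aa G T o p q
  set B := ∑ q ∈ prs G T, bb G T o p q
  set X := Ex (EIn G T) p (Mc G T o)
  set c := chi G T o p
  have h2 : p * X = p * (d * c) - p * B - (1 + p) * (p * A) := by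
    rw [h0]
    ring
  rw [h2]
  have h3 : (1 + p) * (p * A) ≤ (1 + p) * (c - 1) :=
    mul_le_mul_of_nonneg_left (by linarith) (by linarith)
  nlinarith

end Vale.Agent.Lib.P165
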