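import Vale.Agent.Lib.P165.Spectral

/-!
The Duminil-Copin and Tassion differential inequality in finite volume.
-/

namespace Vale.Agent.Lib.P165

open Finset SimpleGraph
open scoped Classical

set_option linter.unusedSectionVars false

variable {V : Type*} {G : SimpleGraph V} [G.LocallyFinite]

/-- Edges of `G` with at least one endpoint in `B`. -/
noncomputable def ETouch (G : SimpleGraph V) [G.LocallyFinite] (B : Finset V) : Finset (Sym2 V) :=
  B.biUnion fun x => (G.neighborFinset x).image fun y => s(x, y)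

lemma mem_ETouch {B : Finset V} {e : Sym2 V} :
    e ∈ ETouch G B ↔ ∃ x ∈ B, ∃ y, G.Adj x y ∧ s(x, y) = e := by
  simp [ETouch]

lemma EIn_subset_ETouch {T B : Finset V} (hT : T ⊆ B) : EIn G T ⊆ ETouch G B := by
  intro e he
  obtain ⟨x, y, hx, -, hxy, rfl⟩ := mem_EIn.mp he
  exact mem_ETouch.mpr ⟨x, hT hx, y, hxy, rfl⟩

/-- `x` is joined by `ω` to a vertex outside `B`. -/
def Ext (ω : Finset (Sym2 V)) (B : Finset V) (x : V) : Prop :=
  ∃ y, y ∉ B ∧ Conn ω x y

lemma Ext.mono {ω ω' : Finset (Sym2 V)} (h : ω ⊆ ω') {B : Finset V} {x : V} (hx : Ext ω B x) :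
    Ext ω' B x := by
  obtain ⟨y, hy, hc⟩ := hx
  exact ⟨y, hy, hc.mono h⟩

/-- Indicator that `o` is joined to the outside of `B`. -/
noncomputable def fB (B : Finset V) (o : V) (ω : Finset (Sym2 V)) : ℝ :=
  if Ext ω B o then 1 else 0

lemma fB_mono {B : Finset V} {o : V} {ω ω' : Finset (Sym2 V)} (h : ω ⊆ ω') :
    fB B o ω ≤ fB B o ω' := by
  unfold fB
  by_cases h1 : Ext ω B o
  · rw [if_pos h1, if_pos (h1.mono h)]
  · rw [if_neg h1]
    split_ifs <;> norm_num

lemma fB_nonneg (B : Finset V) (o : V) (ω : Finset (Sym2 V)) : 0 ≤ fB B o ω := by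
  unfold fB; split_ifs <;> norm_num

lemma fB_le_one (B : Finset V) (o : V) (ω : Finset (Sym2 V)) : fB B o ω ≤ 1 := by
  unfold fB; split_ifs <;> norm_num

/-- The vertices of `B` not joined to the outside of `B`. -/
noncomputable def Tw (B : Finset V) (ω : Finset (Sym2 V)) : Finset V :=
  B.filter (fun x => ¬ Ext ω B x)

lemma ext_of_no_ext {ω : Finset (Sym2 V)} {T B : Finset V}
    (hT : ∀ a ∈ T, ¬ Ext (ω \ EIn G T) B a) {x : V} (h : Ext ω B x) :
    Ext (ω \ EIn G T) B x := by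
  obtain ⟨y, hy, hc⟩ := h
  refine Conn.induct (S := fun v => Ext (ω \ EIn G T) B v) ?_ hc.symm ⟨y, hy, Conn.refl _ _⟩
  intro a b hab ha
  have haT : a ∉ T := fun h => hT a h ha
  have hne : s(a, b) ∉ EIn G T := by
    intro hmem
    obtain ⟨u, v, hu, hv, -, e⟩ := mem_EIn.mp hmem
    rcases Sym2.eq_iff.mp e with ⟨h1, _⟩ | ⟨_, h2⟩
    · exact haT (h1 ▸ hu)
    · exact haT (h2 ▸ hv)
  have hmem : s(a, b) ∈ ω \ EIn G T := Finset.mem_sdiff.mpr ⟨hab, hne⟩
  obtain ⟨y', hy', hc'⟩ := ha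
  exact ⟨y', hy', (Conn.of_mem hmem).symm.trans hc'⟩

lemma Tw_decouple (B T : Finset V) (ω : Finset (Sym2 V)) :
    Tw B ω = T ↔ Tw B (ω \ EIn G T) = T := by
  have hsub : ω \ EIn G T ⊆ ω := Finset.sdiff_subset
  have key : (∀ a ∈ T, ¬ Ext (ω \ EIn G T) B a) → Tw B ω = Tw B (ω \ EIn G T) := by
    intro hT
    unfold Tw
    apply Finset.filter_congr
    intro x _
    constructor
    · intro h h'
      exact h (h'.mono hsub)
    · intro h h'
      exact h (ext_of_no_ext hT h')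
  constructor
  · intro h
    have hT : ∀ a ∈ T, ¬ Ext (ω \ EIn G T) B a := by
      intro a ha ha'
      rw [← h] at ha
      exact (Finset.mem_filter.mp ha).2 (ha'.mono hsub)
    rw [← key hT, h]
  · intro h
    have hT : ∀ a ∈ T, ¬ Ext (ω \ EIn G T) B a := by
      intro a ha
      rw [← h] at ha
      exact (Finset.mem_filter.mp ha).2
    rw [key hT, h]

/-- Number of closed pivotal edges for the connection of `o` to the outside of `B`. -/
noncomputable def Piv (G : SimpleGraph V) [G.LocallyFinite] (B : Finset V) (o : V)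
    (ω : Finset (Sym2 V)) : ℝ :=
  ∑ e ∈ ETouch G B, (if e ∈ ω then 0 else 1) * (fB B o (insert e ω) - fB B o ω)

lemma Piv_term_nonneg (B : Finset V) (o : V) (ω : Finset (Sym2 V)) (e : Sym2 V) :
    0 ≤ (if e ∈ ω then (0 : ℝ) else 1) * (fB B o (insert e ω) - fB B o ω) := by
  have := fB_mono (B := B) (o := o) (Finset.subset_insert e ω)
  split_ifs
  · simp
  · simp only [one_mul]
    linarith

lemma Piv_nonneg (B : Finset V) (o : V) (ω : Finset (Sym2 V)) : 0 ≤ Piv G B o ω :=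
  Finset.sum_nonneg (fun e _ => Piv_term_nonneg B o ω e)

lemma Mc_le_Piv {B : Finset V} {o : V} {ω : Finset (Sym2 V)} (hoT : o ∈ Tw B ω) :
    Mc G (Tw B ω) o (ω ∩ EIn G (Tw B ω)) ≤ Piv G B o ω := by
  set T := Tw B ω with hT
  set ω'' := ω ∩ EIn G T with hω''
  have hω''sub : ω'' ⊆ ω := Finset.inter_subset_left
  have hTB : T ⊆ B := Finset.filter_subset _ _
  have hTnot : ∀ x ∈ T, ¬ Ext ω B x := fun x hx => (Finset.mem_filter.mp hx).2
  have houtside : ∀ y, y ∉ T → Ext ω B y := by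
    intro y hy
    by_cases hyB : y ∈ B
    · by_contra h
      exact hy (Finset.mem_filter.mpr ⟨hyB, h⟩)
    · exact ⟨y, hyB, Conn.refl _ _⟩
  set D0 : Finset (Σ _ : V, V) := T.sigma (fun x => G.neighborFinset x) with hD0
  set D := D0.filter (fun c => Conn ω'' o c.1 ∧ c.2 ∉ T) with hD
  have hMc : Mc G T o ω'' = ∑ c ∈ D, (1 : ℝ) := by
    unfold Mc
    rw [Finset.sum_sigma' T (fun x => G.neighborFinset x), hD, Finset.sum_filter]
  rw [hMc]
  have hterm : ∀ c ∈ D, (if s(c.1, c.2) ∈ ω then (0 : ℝ) else 1) *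
      (fB B o (insert s(c.1, c.2) ω) - fB B o ω) = 1 := by
    intro c hc
    obtain ⟨h1, h2, h3⟩ : c ∈ D0 ∧ Conn ω'' o c.1 ∧ c.2 ∉ T := by
      have := Finset.mem_filter.mp hc
      exact ⟨this.1, this.2.1, this.2.2⟩
    have hcx : c.1 ∈ T := (Finset.mem_sigma.mp h1).1
    have hnot : s(c.1, c.2) ∉ ω := by
      intro hmem
      obtain ⟨y', hy', hc'⟩ := houtside c.2 h3
      exact hTnot c.1 hcx ⟨y', hy', (Conn.of_mem hmem).trans hc'⟩
    have hf0 : fB B o ω = 0 := by
      unfold fB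
      rw [if_neg (hTnot o hoT)]
    have hf1 : fB B o (insert s(c.1, c.2) ω) = 1 := by
      unfold fB
      rw [if_pos]
      obtain ⟨y', hy', hc'⟩ := houtside c.2 h3
      refine ⟨y', hy', ?_⟩
      have hi : ω ⊆ insert s(c.1, c.2) ω := Finset.subset_insert _ _
      exact ((h2.mono (hω''sub.trans hi)).trans
        (Conn.of_mem (Finset.mem_insert_self _ _))).trans (hc'.mono hi)
    rw [if_neg hnot, hf0, hf1]
    norm_num
  have hinj : Set.InjOn (fun c : (Σ _ : V, V) => s(c.1, c.2)) (D : Set (Σ _ : V, V)) := by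
    rintro ⟨x, y⟩ hc ⟨x', y'⟩ hc' he
    have hc1 := Finset.mem_filter.mp (Finset.mem_coe.mp hc)
    have hc2 := Finset.mem_filter.mp (Finset.mem_coe.mp hc')
    have hx : x ∈ T := (Finset.mem_sigma.mp hc1.1).1
    have hy' : y' ∉ T := hc2.2.2
    rcases Sym2.eq_iff.mp he with ⟨h1, h2⟩ | ⟨h1, _⟩
    · simp only at h1 h2
      subst h1
      subst h2
      rfl
    · simp only at h1
      exact absurd (h1 ▸ hx) hy'
  calc ∑ c ∈ D, (1 : ℝ)
      = ∑ c ∈ D, (if s(c.1, c.2) ∈ ω then (0 : ℝ) else 1) *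
          (fB B o (insert s(c.1, c.2) ω) - fB B o ω) :=
        (Finset.sum_congr rfl hterm).symm
    _ = ∑ e ∈ D.image (fun c : (Σ _ : V, V) => s(c.1, c.2)),
          (if e ∈ ω then (0 : ℝ) else 1) * (fB B o (insert e ω) - fB B o ω) :=
        (Finset.sum_image (f := fun e => (if e ∈ ω then (0 : ℝ) else 1) *
          (fB B o (insert e ω) - fB B o ω)) hinj).symm
    _ ≤ Piv G B o ω := by
        unfold Piv
        apply Finset.sum_le_sum_of_subset_of_nonneg
        · intro e he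
          obtain ⟨c, hc, rfl⟩ := Finset.mem_image.mp he
          have hc1 := Finset.mem_filter.mp hc
          have hc2 := Finset.mem_sigma.mp hc1.1
          exact mem_ETouch.mpr ⟨c.1, hTB hc2.1, c.2, (G.mem_neighborFinset _ _).mp hc2.2, rfl⟩
        · intro e _ _
          exact Piv_term_nonneg B o ω e

/-- Indicator that the set of vertices not joined to the outside is `T`. -/
noncomputable def aT (B T : Finset V) (ω : Finset (Sym2 V)) : ℝ :=
  if Tw B ω = T then 1 else 0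

lemma aT_nonneg (B T : Finset V) (ω : Finset (Sym2 V)) : 0 ≤ aT B T ω := by
  unfold aT; split_ifs <;> norm_num

/-- The sets `T` considered in the decomposition. -/
noncomputable def famT (B : Finset V) (o : V) : Finset (Finset V) :=
  B.powerset.filter (fun T => o ∈ T)

lemma sum_aT {B : Finset V} {o : V} (ho : o ∈ B) (ω : Finset (Sym2 V)) :
    ∑ T ∈ famT B o, aT B T ω = 1 - fB B o ω := by
  unfold aT fB
  by_cases h : Ext ω B o
  · rw [if_pos h, sub_self]
    apply Finset.sum_eq_zero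
    intro T hT
    rw [if_neg]
    rintro rfl
    exact (Finset.mem_filter.mp (Finset.mem_filter.mp hT).2).2 h
  · rw [if_neg h, sub_zero, Finset.sum_ite_eq]
    rw [if_pos]
    refine Finset.mem_filter.mpr ⟨Finset.mem_powerset.mpr (Finset.filter_subset _ _), ?_⟩
    exact Finset.mem_filter.mpr ⟨ho, h⟩

lemma sum_aT_Mc_le {B : Finset V} {o : V} (ω : Finset (Sym2 V)) :
    ∑ T ∈ famT B o, aT B T ω * Mc G T o (ω ∩ EIn G T) ≤ Piv G B o ω := by
  by_cases hoT : o ∈ Tw B ω
  · have hmem : Tw B ω ∈ famT B o :=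
      Finset.mem_filter.mpr ⟨Finset.mem_powerset.mpr (Finset.filter_subset _ _), hoT⟩
    rw [Finset.sum_eq_single (Tw B ω)]
    · unfold aT
      rw [if_pos rfl, one_mul]
      exact Mc_le_Piv hoT
    · intro T _ hne
      unfold aT
      rw [if_neg (Ne.symm hne), zero_mul]
    · intro h
      exact absurd hmem h
  · rw [Finset.sum_eq_zero]
    · exact Piv_nonneg B o ω
    · intro T hT
      unfold aT
      rw [if_neg, zero_mul]
      rintro rfl
      exact hoT (Finset.mem_filter.mp hT).2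

/-- Independence of the exterior of `T` and the interior of `T`. -/
lemma Ex_aT_Mc {B T : Finset V} {o : V} (hT : T ⊆ B) (p : ℝ) :
    Ex (ETouch G B) p (fun ω => aT B T ω * Mc G T o (ω ∩ EIn G T))
      = Ex (ETouch G B) p (aT B T) * Ex (EIn G T) p (Mc G T o) := by
  have hsub : EIn G T ⊆ ETouch G B := EIn_subset_ETouch hT
  have hd : Disjoint (ETouch G B \ EIn G T) (EIn G T) := Finset.sdiff_disjoint
  have hu : (ETouch G B \ EIn G T) ∪ EIn G T = ETouch G B := Finset.sdiff_union_of_subset hsub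
  have hinter : ∀ ω, ω ⊆ ETouch G B → ω ∩ (ETouch G B \ EIn G T) = ω \ EIn G T := by
    intro ω hω
    ext e
    simp only [Finset.mem_inter, Finset.mem_sdiff]
    constructor
    · rintro ⟨h1, _, h3⟩
      exact ⟨h1, h3⟩
    · rintro ⟨h1, h3⟩
      exact ⟨h1, hω h1, h3⟩
  have haT : ∀ ω, aT B T ω = aT B T (ω \ EIn G T) := by
    intro ω
    unfold aT
    simp only [Tw_decouple (G := G) B T ω]
  have h1 : Ex (ETouch G B) p (fun ω => aT B T ω * Mc G T o (ω ∩ EIn G T))
      = Ex (ETouch G B \ EIn G T) p (aT B T) * Ex (EIn G T) p (Mc G T o) := by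
    rw [← Ex_indep _ _ hd, hu]
    apply Ex_congr
    intro ω hω
    rw [hinter ω hω, ← haT]
  have h2 : Ex (ETouch G B) p (aT B T) = Ex (ETouch G B \ EIn G T) p (aT B T) := by
    rw [← Ex_restrict _ _ hd, hu]
    apply Ex_congr
    intro ω hω
    rw [hinter ω hω, ← haT]
  rw [h1, h2]

/-- Expectation of the number of closed pivotal edges. -/
lemma Ex_Piv (B : Finset V) (o : V) (p : ℝ) :
    Ex (ETouch G B) p (Piv G B o) = (1 - p) * ∑ e ∈ ETouch G B, Ex ((ETouch G B).erase e) p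
      (fun ω => fB B o (insert e ω) - fB B o ω) := by
  unfold Piv
  rw [Ex_sum, Finset.mul_sum]
  apply Finset.sum_congr rfl
  intro e he
  rw [← Ex_closed he p]
  apply Ex_congr
  intro ω _
  by_cases h : e ∈ ω
  · simp [h]
  · rw [Finset.erase_eq_of_notMem h]

/-- Finite-volume one-arm probability. -/
noncomputable def thetaB (G : SimpleGraph V) [G.LocallyFinite] (B : Finset V) (o : V)
    (p : ℝ) : ℝ :=
  Ex (ETouch G B) p (fB B o)

/-- The differential inequality. -/
theorem dct_ineq {B : Finset V} {o : V} (ho : o ∈ B) {p : ℝ} (hp : 0 ≤ p) (hp1 : p ≤ 1)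
    (hφ : ∀ T, T ⊆ B → o ∈ T → 1 ≤ p * Ex (EIn G T) p (Mc G T o)) :
    1 - thetaB G B o p ≤ p * Ex (ETouch G B) p (Piv G B o) := by
  have h1 : 1 - thetaB G B o p = ∑ T ∈ famT B o, Ex (ETouch G B) p (aT B T) := by
    unfold thetaB
    rw [← Ex_sum]
    rw [Ex_congr (g := fun ω => 1 - fB B o ω) (fun ω _ => sum_aT ho ω), Ex_sub, Ex_const]
  have h2 : ∑ T ∈ famT B o, Ex (ETouch G B) p (aT B T)
      ≤ ∑ T ∈ famT B o, p * Ex (ETouch G B) p (fun ω => aT B T ω * Mc G T o (ω ∩ EIn G T)) := by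
    apply Finset.sum_le_sum
    intro T hT
    have hT' := Finset.mem_filter.mp hT
    rw [Ex_aT_Mc (Finset.mem_powerset.mp hT'.1)]
    have h3 := hφ T (Finset.mem_powerset.mp hT'.1) hT'.2
    have h4 : 0 ≤ Ex (ETouch G B) p (aT B T) := Ex_nonneg hp hp1 (fun ω _ => aT_nonneg B T ω)
    nlinarith
  have h3 : ∑ T ∈ famT B o, p * Ex (ETouch G B) p (fun ω => aT B T ω * Mc G T o (ω ∩ EIn G T))
      ≤ p * Ex (ETouch G B) p (Piv G B o) := by
    rw [← Finset.mul_sum, ← Ex_sum]
    apply mul_le_mul_of_nonneg_left _ hp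
    exact Ex_mono hp hp1 (fun ω _ => sum_aT_Mc_le ω)
  rw [h1]
  exact h2.trans h3

lemma thetaB_hasDerivAt (B : Finset V) (o : V) (p : ℝ) :
    HasDerivAt (fun q => thetaB G B o q)
      (∑ e ∈ ETouch G B, Ex ((ETouch G B).erase e) p
        (fun ω => fB B o (insert e ω) - fB B o ω)) p :=
  Ex_hasDerivAt _ _ p

/-- The integrated form of the differential inequality. -/
theorem theta_lower {B : Finset V} {o : V} (ho : o ∈ B) {p₀ p₁ : ℝ} (h0 : 0 < p₀) (h01 : p₀ ≤ p₁)
    (h1 : p₁ < 1)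
    (hφ : ∀ p, p₀ ≤ p → p ≤ p₁ → ∀ T, T ⊆ B → o ∈ T → 1 ≤ p * Ex (EIn G T) p (Mc G T o)) :
    1 - (p₀ * (1 - p₁)) / ((1 - p₀) * p₁) ≤ thetaB G B o p₁ := by
  set u : ℝ → ℝ := fun p => (1 - thetaB G B o p) * (p / (1 - p)) with hu
  have hder : ∀ p, p₀ ≤ p → p ≤ p₁ → ∃ u', HasDerivAt u u' p ∧ u' ≤ 0 := by
    intro p hp0 hp1
    have hp : 0 < p := lt_of_lt_of_le h0 hp0
    have hp' : p < 1 := lt_of_le_of_lt hp1 h1
    have h1p : 0 < 1 - p := by linarith
    set θ' := ∑ e ∈ ETouch G B, Ex ((ETouch G B).erase e) p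
        (fun ω => fB B o (insert e ω) - fB B o ω) with hθ'
    have h2 := thetaB_hasDerivAt (G := G) B o p
    have h3 : HasDerivAt (fun q => 1 - thetaB G B o q) (-θ') p := by
      simpa using h2.const_sub 1
    have h4 : HasDerivAt (fun q : ℝ => q / (1 - q)) ((1 * (1 - p) - p * (-1)) / (1 - p) ^ 2) p := by
      have h5 : HasDerivAt (fun q : ℝ => 1 - q) (-1) p := by
        simpa using (hasDerivAt_id p).const_sub 1
      exact (hasDerivAt_id p).div h5 (ne_of_gt h1p)
    refine ⟨_, h3.mul h4, ?_⟩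
    have h6 := dct_ineq ho hp.le hp'.le (hφ p hp0 hp1)
    rw [Ex_Piv, ← hθ'] at h6
    have h7 : 1 - thetaB G B o p ≤ p * (1 - p) * θ' := by
      calc _ ≤ _ := h6
        _ = _ := by ring
    have e : -θ' * (p / (1 - p)) + (1 - thetaB G B o p) * ((1 * (1 - p) - p * -1) / (1 - p) ^ 2)
        = ((1 - thetaB G B o p) - p * (1 - p) * θ') / (1 - p) ^ 2 := by
      field_simp
      ring
    rw [e]
    apply div_nonpos_of_nonpos_of_nonneg
    · linarith
    · positivity
  have hanti : AntitoneOn u (Set.Icc p₀ p₁) := by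
    apply antitoneOn_of_deriv_nonpos (convex_Icc p₀ p₁)
    · intro p hp
      obtain ⟨u', hu', _⟩ := hder p hp.1 hp.2
      exact hu'.continuousAt.continuousWithinAt
    · intro p hp
      rw [interior_Icc] at hp
      obtain ⟨u', hu', _⟩ := hder p hp.1.le hp.2.le
      exact hu'.differentiableAt.differentiableWithinAt
    · intro p hp
      rw [interior_Icc] at hp
      obtain ⟨u', hu', h'⟩ := hder p hp.1.le hp.2.le
      rw [hu'.deriv]
      exact h'
  have hle : u p₁ ≤ u p₀ := hanti ⟨le_rfl, h01⟩ ⟨h01, le_rfl⟩ h01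
  have h1p0 : 0 < 1 - p₀ := by linarith
  have h1p1 : 0 < 1 - p₁ := by linarith
  have hp1 : 0 < p₁ := lt_of_lt_of_le h0 h01
  have hθ0 : 0 ≤ thetaB G B o p₀ :=
    Ex_nonneg h0.le (by linarith) (fun ω _ => fB_nonneg B o ω)
  have hup0 : u p₀ ≤ p₀ / (1 - p₀) := by
    simp only [hu]
    have : 0 ≤ p₀ / (1 - p₀) := by positivity
    nlinarith
  have hfin : (1 - thetaB G B o p₁) * (p₁ / (1 - p₁)) ≤ p₀ / (1 - p₀) := hle.trans hup0
  have hdiv : 1 - thetaB G B o p₁ ≤ (p₀ * (1 - p₁)) / ((1 - p₀) * p₁) := by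
    rw [le_div_iff₀ (by positivity)]
    rw [div_eq_mul_one_div p₁, ← mul_assoc, mul_one_div, div_le_iff₀ h1p1, div_mul_eq_mul_div,
      le_div_iff₀ h1p0] at hfin
    nlinarith
  linarith

end Vale.Agent.Lib.P165
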