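import Mathlib

/-!
Bernoulli bond percolation on a graph: the critical and the uniqueness thresholds.
-/

namespace Vale.Agent.Lib.P165

open MeasureTheory ProbabilityTheory unitInterval

variable {V : Type*}

/-- The graph of the open edges of `G` in the configuration `ω`. -/
def openGraph (G : SimpleGraph V) (ω : Set (Sym2 V)) : SimpleGraph V :=
  SimpleGraph.fromEdgeSet (ω ∩ G.edgeSet)

/-- The number of infinite clusters of the configuration `ω`. -/
noncomputable def numInfClusters (G : SimpleGraph V) (ω : Set (Sym2 V)) : ℕ∞ :=
  Set.encard {c : (openGraph G ω).ConnectedComponent | c.supp.Infinite}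

/-- Bernoulli bond percolation: every edge of `G` is open independently with probability `p`. -/
noncomputable def percMeasure (G : SimpleGraph V) (p : I) : Measure (Set (Sym2 V)) :=
  setBernoulli G.edgeSet p

/-- The critical probability: the infimum of the `p` with an infinite cluster with positive
probability. -/
noncomputable def pc (G : SimpleGraph V) : ℝ :=
  sInf ((fun p : I => (p : ℝ)) '' {p | 0 < percMeasure G p {ω | 1 ≤ numInfClusters G ω}})

/-- The uniqueness threshold: the infimum of the `p` with almost surely exactly one infinite
cluster. -/
noncomputable def pu (G : SimpleGraph V) : ℝ :=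
  sInf ((fun p : I => (p : ℝ)) '' {p | percMeasure G p {ω | numInfClusters G ω = 1} = 1})

end Vale.Agent.Lib.P165
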