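import Vale.Agent.Lib.P165.FuzzForm

/-!
The `k`-fuzz of a graph: vertices at graph distance between `1` and `k` become adjacent.
For a nonamenable vertex-transitive graph, all large fuzzes satisfy the large-degree criterion.
-/

namespace Vale.Agent.Lib.P165

open Finset SimpleGraph
open scoped Classical

set_option linter.unusedSectionVars false

variable {V : Type*}

/-- The `k`-fuzz of `G`: two distinct vertices are adjacent when they are joined by a walk of
`G` of length at most `k`. -/
def fuzz (G : SimpleGraph V) (k : ℕ) : SimpleGraph V where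
  Adj x y := x ≠ y ∧ ∃ w : G.Walk x y, w.length ≤ k
  symm := ⟨fun x y ⟨h, w, hw⟩ => ⟨h.symm, w.reverse, by simpa using hw⟩⟩
  loopless := ⟨fun x h => h.1 rfl⟩

variable {G : SimpleGraph V} [G.LocallyFinite]

/-- The closed ball of radius `k` around `x`. -/
noncomputable def cball (G : SimpleGraph V) [G.LocallyFinite] (x : V) : ℕ → Finset V
  | 0 => {x}
  | k + 1 => cball G x k ∪ (cball G x k).biUnion (fun w => G.neighborFinset w)

lemma mem_cball {x z : V} {k : ℕ} : z ∈ cball G x k ↔ ∃ w : G.Walk x z, w.length ≤ k := by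
  induction k generalizing z with
  | zero =>
    simp only [cball, mem_singleton]
    constructor
    · rintro rfl
      exact ⟨Walk.nil, by simp⟩
    · rintro ⟨w, hw⟩
      have h0 : w.length = 0 := by omega
      exact (Walk.eq_of_length_eq_zero h0).symm
  | succ k ih =>
    simp only [cball, mem_union, mem_biUnion, mem_neighborFinset]
    constructor
    · rintro (h | ⟨u, hu, huz⟩)
      · obtain ⟨w, hw⟩ := ih.mp h
        exact ⟨w, by omega⟩
      · obtain ⟨w, hw⟩ := ih.mp hu
        refine ⟨w.concat huz, ?_⟩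
        rw [Walk.length_concat]
        omega
    · rintro ⟨w, hw⟩
      by_cases hk : w.length ≤ k
      · exact Or.inl (ih.mpr ⟨w, hk⟩)
      · right
        generalize hq : w.reverse = q at *
        cases q with
        | nil =>
          exfalso
          have h1 : w.reverse.length = 0 := by rw [hq]; simp
          rw [Walk.length_reverse] at h1
          omega
        | cons h q' =>
          refine ⟨_, ih.mpr ⟨q'.reverse, ?_⟩, h.symm⟩
          have h1 : w.reverse.length = q'.length + 1 := by rw [hq]; simp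
          rw [Walk.length_reverse] at h1 ⊢
          omega

lemma center_mem_cball (x : V) (k : ℕ) : x ∈ cball G x k :=
  mem_cball.mpr ⟨Walk.nil, by simp⟩

lemma cball_mono_succ (x : V) (k : ℕ) : cball G x k ⊆ cball G x (k + 1) :=
  Finset.subset_union_left

noncomputable instance fuzzLocallyFinite (G : SimpleGraph V) [G.LocallyFinite] (k : ℕ) :
    (fuzz G k).LocallyFinite := fun x =>
  Fintype.ofFinset ((cball G x k).erase x) (by
    intro y
    simp only [mem_erase, mem_neighborSet, fuzz, mem_cball]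
    constructor
    · rintro ⟨h1, h2⟩
      exact ⟨h1.symm, h2⟩
    · rintro ⟨h1, h2⟩
      exact ⟨h1.symm, h2⟩)

lemma neighborFinset_fuzz (x : V) (k : ℕ) :
    (fuzz G k).neighborFinset x = (cball G x k).erase x := by
  ext y
  rw [mem_neighborFinset, mem_erase, mem_cball]
  constructor
  · rintro ⟨h1, h2⟩
    exact ⟨h1.symm, h2⟩
  · rintro ⟨h1, h2⟩
    exact ⟨h1.symm, h2⟩

lemma le_fuzz {k : ℕ} (hk : 1 ≤ k) : G ≤ fuzz G k := by
  intro x y hxy
  exact ⟨hxy.ne, hxy.toWalk, by simpa using hk⟩

lemma mem_cball_map (φ : G ≃g G) {x z : V} {k : ℕ} (h : z ∈ cball G x k) :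
    φ z ∈ cball G (φ x) k := by
  obtain ⟨w, hw⟩ := mem_cball.mp h
  exact mem_cball.mpr ⟨w.map φ.toHom, by simpa using hw⟩

lemma card_cball_map (φ : G ≃g G) (x : V) (k : ℕ) :
    (cball G (φ x) k).card = (cball G x k).card := by
  apply le_antisymm
  · have h : ∀ z ∈ cball G (φ x) k, φ.symm z ∈ cball G x k := by
      intro z hz
      have := mem_cball_map φ.symm hz
      simpa using this
    exact Finset.card_le_card_of_injOn (fun z => φ.symm z) h (φ.symm.injective.injOn)
  · exact Finset.card_le_card_of_injOn (fun z => φ z) (fun z hz => mem_cball_map φ hz)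
      (φ.injective.injOn)

lemma fuzz_adj_map (φ : G ≃g G) {k : ℕ} {x y : V} (h : (fuzz G k).Adj x y) :
    (fuzz G k).Adj (φ x) (φ y) := by
  obtain ⟨hne, w, hw⟩ := h
  exact ⟨fun e => hne (φ.injective e), w.map φ.toHom, by simpa using hw⟩

/-- Automorphisms of `G` act on the fuzz. -/
def fuzzAut (φ : G ≃g G) (k : ℕ) : fuzz G k ≃g fuzz G k where
  toEquiv := φ.toEquiv
  map_rel_iff' := by
    intro x y
    constructor
    · intro h
      have := fuzz_adj_map φ.symm h
      simpa using this
    · exact fuzz_adj_map φ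

lemma card_cball_succ_le {d : ℕ} (hd : G.IsRegularOfDegree d) (x : V) (k : ℕ) :
    (cball G x (k + 1)).card ≤ (d + 1) * (cball G x k).card := by
  have h1 : (cball G x (k + 1)).card ≤ (cball G x k).card +
      ((cball G x k).biUnion (fun w => G.neighborFinset w)).card :=
    Finset.card_union_le _ _
  have h2 : ((cball G x k).biUnion (fun w => G.neighborFinset w)).card ≤
      (cball G x k).card * d := by
    apply Finset.card_biUnion_le_card_mul
    intro w _
    rw [card_neighborFinset_eq_degree, hd w]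
  nlinarith

lemma card_cball_ge [Infinite V] (hconn : G.Connected) (x : V) (k : ℕ) :
    k + 1 ≤ (cball G x k).card := by
  induction k with
  | zero =>
    simp [cball]
  | succ k ih =>
    have hss : cball G x k ⊂ cball G x (k + 1) := by
      refine Finset.ssubset_iff_subset_ne.mpr ⟨cball_mono_succ x k, ?_⟩
      intro heq
      have key : ∀ {u z : V} (w : G.Walk u z), u = x → z ∈ cball G x k := by
        intro u z w
        induction w using Walk.concatRec with
        | Hnil =>
          rintro rfl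
          exact center_mem_cball _ k
        | @Hconcat u' v' w' p hadj ih' =>
          intro hux
          have h1 : w' ∈ cball G x (k + 1) := by
            simp only [cball, mem_union, mem_biUnion, mem_neighborFinset]
            exact Or.inr ⟨_, ih' hux, hadj⟩
          rwa [← heq] at h1
      have hall : ∀ z : V, z ∈ cball G x k := by
        intro z
        obtain ⟨w⟩ := hconn.preconnected x z
        exact key w rfl
      have : Finite V := Finite.of_injective (fun z => (⟨z, hall z⟩ : cball G x k))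
        (fun a b h => by simpa using h)
      exact not_finite V
    have := Finset.card_lt_card hss
    omega

section Main

variable [Infinite V]

/-- The spectral bound for the fuzz. -/
theorem fuzz_normBound (hconn : G.Connected)
    (htrans : ∀ x y, ∃ φ : G ≃g G, φ x = y) {d : ℕ} (hd : G.IsRegularOfDegree d) {h : ℝ}
    (hh : 0 < h)
    (hiso : ∀ A : Finset V, A.Nonempty → h * (A.card : ℝ) ≤ ((vertexBoundary G A).card : ℝ))
    (hκ : h ^ 2 / (32 * (d : ℝ) ^ 2 * ((d : ℝ) + 1)) < 1)
    (hd0 : 0 < d) (j : ℕ) {dH : ℕ} (hdH : (fuzz G (j + 1)).IsRegularOfDegree dH) (hdH0 : 0 < dH) :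
    NormBound (fuzz G (j + 1))
      ((1 - h ^ 2 / (32 * (d : ℝ) ^ 2 * ((d : ℝ) + 1))) * dH) := by
  set H := fuzz G (j + 1) with hH
  set κ := h ^ 2 / (32 * (d : ℝ) ^ 2 * ((d : ℝ) + 1)) with hκdef
  have hd0' : (0 : ℝ) < d := by exact_mod_cast hd0
  have hdH0' : (0 : ℝ) < dH := by exact_mod_cast hdH0
  have hle : G ≤ H := le_fuzz (by omega)
  obtain ⟨o⟩ := hconn.nonempty
  set b : ℝ := ((cball G o j).card : ℝ) with hb
  have hcardb : ∀ x, ((cball G x j).card : ℝ) = b := by
    intro x
    obtain ⟨φ, hφ⟩ := htrans o x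
    rw [hb, ← hφ, card_cball_map]
  -- the size of the ball against the degree of the fuzz
  have hball : (dH : ℝ) ≤ ((d : ℝ) + 1) * b := by
    have h1 : ((cball G o (j + 1)).card : ℝ) ≤ ((d : ℝ) + 1) * b := by
      have := card_cball_succ_le hd o j
      rw [hb]
      exact_mod_cast this
    have h2 : dH = (cball G o (j + 1)).card - 1 := by
      have := hdH o
      rw [← card_neighborFinset_eq_degree, neighborFinset_fuzz,
        Finset.card_erase_of_mem (center_mem_cball o (j + 1))] at this
      omega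
    have h3 : dH ≤ (cball G o (j + 1)).card := by omega
    have h4 : (dH : ℝ) ≤ ((cball G o (j + 1)).card : ℝ) := by exact_mod_cast h3
    linarith
  apply normBound_of_form (mul_pos (by linarith) hdH0')
  intro B g hg hsupp hclH
  set N := ∑ x ∈ B, g x ^ 2 with hN
  have hN0 : 0 ≤ N := Finset.sum_nonneg (fun _ _ => sq_nonneg _)
  have hclG : ∀ x y, g x ≠ 0 → G.Adj x y → y ∈ B := fun x y hx hxy => hclH x y hx (hle hxy)
  have hdegG : ∀ x, ((B.filter (G.Adj x)).card : ℝ) ≤ d := by
    intro x
    have h1 : B.filter (G.Adj x) ⊆ G.neighborFinset x := by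
      intro y hy
      exact (mem_neighborFinset _ _ _).mpr (mem_filter.mp hy).2
    have h2 := Finset.card_le_card h1
    rw [card_neighborFinset_eq_degree, hd x] at h2
    exact_mod_cast h2
  have hch := cheeger (G := G) B hh hd0' hiso hdegG g hg hsupp hclG
  have hcomp := dirichlet_compare (G := G) (H := H) B g (b := b) (d := d) hd0'.le hsupp hclH
    hdegG (fun x => cball G x j) hcardb
    (by
      intro x z hz
      by_cases hzx : z = x
      · exact Or.inl hzx
      · right
        obtain ⟨w, hw⟩ := mem_cball.mp hz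
        exact ⟨fun e => hzx e.symm, w, by omega⟩)
    (by
      intro x y hxy z hz
      by_cases hzy : z = y
      · exact Or.inl hzy
      · right
        obtain ⟨w, hw⟩ := mem_cball.mp hz
        refine ⟨fun e => hzy e.symm, Walk.cons hxy.symm w, ?_⟩
        simp only [Walk.length_cons]
        omega)
  have hdeq := dirichlet_eq (H := H) B g (d := (dH : ℝ)) (by
    intro x _ hx
    have h1 : B.filter (H.Adj x) = H.neighborFinset x := by
      ext y
      simp only [mem_filter, mem_neighborFinset]
      exact ⟨fun h => h.2, fun h => ⟨hclH x y hx h, h⟩⟩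
    rw [h1, card_neighborFinset_eq_degree, hdH x])
  set DG := sA G B (fun x y => (g x - g y) ^ 2) with hDG
  set DH := sA H B (fun x y => (g x - g y) ^ 2) with hDH
  have hDG0 : 0 ≤ DG := sA_nonneg _ _ (fun _ _ => sq_nonneg _)
  -- combine
  have hb0 : 0 < b := by
    have : 0 < (dH : ℝ) := hdH0'
    have h2 : (0 : ℝ) < (d : ℝ) + 1 := by linarith
    by_contra hne
    have : b ≤ 0 := not_lt.mp hne
    nlinarith
  have hq : qF H B g g = dH * N - DH / 2 := by
    rw [hdeq]
    ring
  have h1 : b * (h ^ 2 * N) ≤ 16 * (d : ℝ) ^ 2 * DH := by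
    have h2 : b * (h ^ 2 * N) ≤ b * (4 * d * DG) := mul_le_mul_of_nonneg_left hch hb0.le
    have h3 : b * (4 * d * DG) = 4 * d * (b * DG) := by ring
    have h4 : 4 * (d : ℝ) * (b * DG) ≤ 4 * d * (4 * d * DH) :=
      mul_le_mul_of_nonneg_left hcomp (by positivity)
    nlinarith
  have h2 : κ * dH * N ≤ DH / 2 := by
    have h3 : κ * dH ≤ κ * (((d : ℝ) + 1) * b) :=
      mul_le_mul_of_nonneg_left hball (by positivity)
    have h4 : κ * (((d : ℝ) + 1) * b) * N = b * (h ^ 2 * N) / (32 * (d : ℝ) ^ 2) := by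
      rw [hκdef]
      field_simp
    have h5 : b * (h ^ 2 * N) / (32 * (d : ℝ) ^ 2) ≤ DH / 2 := by
      rw [div_le_iff₀ (by positivity)]
      nlinarith
    have h6 : κ * dH * N ≤ κ * (((d : ℝ) + 1) * b) * N := mul_le_mul_of_nonneg_right h3 hN0
    linarith
  rw [hq]
  nlinarith

/-- All large fuzzes of a nonamenable vertex-transitive graph have `p_c < p_u`. -/
theorem fuzz_pc_lt_pu (hconn : G.Connected) (htrans : ∀ x y, ∃ φ : G ≃g G, φ x = y)
    (hna : Nonamenable G) : ∃ k₀ : ℕ, ∀ k, k₀ ≤ k → pc (fuzz G k) < pu (fuzz G k) := by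
  obtain ⟨h, hh, hiso⟩ := hna
  obtain ⟨o⟩ := hconn.nonempty
  set d := G.degree o with hd'
  have hd : G.IsRegularOfDegree d := by
    intro x
    obtain ⟨φ, hφ⟩ := htrans o x
    rw [← hφ, hd', ← card_neighborFinset_eq_degree, ← card_neighborFinset_eq_degree]
    apply Finset.card_bij' (fun y _ => φ.symm y) (fun y _ => φ y)
    · intro y hy
      rw [mem_neighborFinset] at hy ⊢
      have := φ.symm.map_adj_iff.mpr hy
      simpa using this
    · intro y hy
      rw [mem_neighborFinset] at hy ⊢
      exact φ.map_adj_iff.mpr hy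
    · intro y _
      simp
    · intro y _
      simp
  -- `h ≤ d`
  have hbd : h ≤ d := by
    have h1 := hiso {o} (by simp)
    have h2 : (vertexBoundary G {o}).card ≤ d := by
      have h3 : vertexBoundary G {o} ⊆ G.neighborFinset o := by
        intro x hx
        simp only [vertexBoundary, mem_sdiff, mem_biUnion, mem_singleton] at hx
        obtain ⟨⟨a, rfl, hax⟩, _⟩ := hx
        exact hax
      have h4 := Finset.card_le_card h3
      rwa [card_neighborFinset_eq_degree] at h4
    simp only [card_singleton, Nat.cast_one, mul_one] at h1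
    have h5 : ((vertexBoundary G {o}).card : ℝ) ≤ d := by exact_mod_cast h2
    linarith
  have hd0 : 0 < d := by
    have : (0 : ℝ) < d := hh.trans_le hbd
    exact_mod_cast this
  have hd0' : (0 : ℝ) < d := by exact_mod_cast hd0
  set κ := h ^ 2 / (32 * (d : ℝ) ^ 2 * ((d : ℝ) + 1)) with hκdef
  have hκ0 : 0 < κ := by positivity
  have hκ2 : κ ≤ 1 / 2 := by
    rw [hκdef, div_le_iff₀ (by positivity)]
    have h1 : h ^ 2 ≤ (d : ℝ) ^ 2 := by nlinarith
    nlinarith [sq_nonneg (d : ℝ)]
  refine ⟨⌈15 / κ ^ 3⌉₊ + 1, ?_⟩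
  intro k hk
  obtain ⟨j, rfl⟩ : ∃ j, k = j + 1 := ⟨k - 1, by omega⟩
  have hconnH : (fuzz G (j + 1)).Connected := hconn.mono (le_fuzz (by omega))
  have htransH : ∀ x y, ∃ φ : fuzz G (j + 1) ≃g fuzz G (j + 1), φ x = y := by
    intro x y
    obtain ⟨φ, hφ⟩ := htrans x y
    exact ⟨fuzzAut φ (j + 1), hφ⟩
  set dH := (cball G o (j + 1)).card - 1 with hdHdef
  have hdeg : ∀ x, (fuzz G (j + 1)).degree x = dH := by
    intro x
    obtain ⟨φ, hφ⟩ := htrans o x
    rw [← card_neighborFinset_eq_degree, neighborFinset_fuzz,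
      Finset.card_erase_of_mem (center_mem_cball x (j + 1)), ← hφ, card_cball_map]
  have hdHreg : (fuzz G (j + 1)).IsRegularOfDegree dH := hdeg
  have hdHge : j + 1 ≤ dH := by
    have := card_cball_ge hconn o (j + 1)
    omega
  have hdHR : ((j : ℝ) + 1) ≤ dH := by exact_mod_cast hdHge
  have hbig : 15 / κ ^ 3 ≤ (dH : ℝ) := by
    have h1 : 15 / κ ^ 3 ≤ (⌈15 / κ ^ 3⌉₊ : ℝ) := Nat.le_ceil _
    have h2 : (⌈15 / κ ^ 3⌉₊ : ℝ) + 1 ≤ ((j + 1 : ℕ) : ℝ) := by exact_mod_cast hk
    have h3 : ((j + 1 : ℕ) : ℝ) ≤ dH := by exact_mod_cast hdHge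
    linarith
  have hdH0 : 0 < dH := by omega
  have hκlt : κ < 1 := by linarith
  have hnorm := fuzz_normBound hconn htrans hd hh hiso hκlt hd0 j hdHreg hdH0
  have hρ : (1 : ℝ) / 2 ≤ 1 - κ := by linarith
  have hρ1 : 1 - κ < 1 := by linarith
  have hdeg15 : (15 : ℝ) ≤ dH * (1 - (1 - κ)) ^ 3 := by
    have e : (1 : ℝ) - (1 - κ) = κ := by ring
    rw [e]
    rwa [div_le_iff₀ (by positivity)] at hbig
  obtain ⟨h1, h2⟩ := pc_lt_pu_explicit hconnH htransH hdHreg hρ hρ1 hnorm hdeg15
  exact lt_of_lt_of_le h1 h2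

end Main

end Vale.Agent.Lib.P165
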