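import Vale.Agent.Lib.P165.Main

/-!
Dirichlet forms on finite windows: Cheeger inequality from the vertex-isoperimetric constant,
comparison of two graphs, and the passage from the quadratic form on nonnegative functions
to the operator norm.
-/

namespace Vale.Agent.Lib.P165

open Finset SimpleGraph
open scoped Classical

set_option linter.unusedSectionVars false

variable {V : Type*}

/-- Sum of `F` over the ordered adjacent pairs of the window `B`. -/
noncomputable def sA (H : SimpleGraph V) (B : Finset V) (F : V → V → ℝ) : ℝ :=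
  ∑ x ∈ B, ∑ y ∈ B, if H.Adj x y then F x y else 0

lemma sA_swap (H : SimpleGraph V) (B : Finset V) (F : V → V → ℝ) :
    sA H B F = sA H B (fun x y => F y x) := by
  unfold sA
  rw [Finset.sum_comm]
  refine Finset.sum_congr rfl (fun x _ => Finset.sum_congr rfl (fun y _ => ?_))
  by_cases h : H.Adj y x
  · rw [if_pos h, if_pos h.symm]
  · rw [if_neg h, if_neg (fun h' => h h'.symm)]

lemma sA_add (H : SimpleGraph V) (B : Finset V) (F F' : V → V → ℝ) :
    sA H B (fun x y => F x y + F' x y) = sA H B F + sA H B F' := by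
  unfold sA
  rw [← Finset.sum_add_distrib]
  refine Finset.sum_congr rfl (fun x _ => ?_)
  rw [← Finset.sum_add_distrib]
  refine Finset.sum_congr rfl (fun y _ => ?_)
  by_cases h : H.Adj x y <;> simp [h]

lemma sA_sub (H : SimpleGraph V) (B : Finset V) (F F' : V → V → ℝ) :
    sA H B (fun x y => F x y - F' x y) = sA H B F - sA H B F' := by
  unfold sA
  rw [← Finset.sum_sub_distrib]
  refine Finset.sum_congr rfl (fun x _ => ?_)
  rw [← Finset.sum_sub_distrib]
  refine Finset.sum_congr rfl (fun y _ => ?_)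
  by_cases h : H.Adj x y <;> simp [h]

lemma sA_smul (H : SimpleGraph V) (B : Finset V) (c : ℝ) (F : V → V → ℝ) :
    sA H B (fun x y => c * F x y) = c * sA H B F := by
  unfold sA
  rw [Finset.mul_sum]
  refine Finset.sum_congr rfl (fun x _ => ?_)
  rw [Finset.mul_sum]
  refine Finset.sum_congr rfl (fun y _ => ?_)
  by_cases h : H.Adj x y <;> simp [h]

lemma sA_mono (H : SimpleGraph V) (B : Finset V) {F F' : V → V → ℝ}
    (h : ∀ x ∈ B, ∀ y ∈ B, H.Adj x y → F x y ≤ F' x y) : sA H B F ≤ sA H B F' := by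
  unfold sA
  refine Finset.sum_le_sum (fun x hx => Finset.sum_le_sum (fun y hy => ?_))
  by_cases hadj : H.Adj x y
  · rw [if_pos hadj, if_pos hadj]
    exact h x hx y hy hadj
  · rw [if_neg hadj, if_neg hadj]

lemma sA_nonneg (H : SimpleGraph V) (B : Finset V) {F : V → V → ℝ}
    (h : ∀ x y, 0 ≤ F x y) : 0 ≤ sA H B F := by
  unfold sA
  refine Finset.sum_nonneg (fun x _ => Finset.sum_nonneg (fun y _ => ?_))
  by_cases hadj : H.Adj x y
  · rw [if_pos hadj]
    exact h x y
  · rw [if_neg hadj]

lemma sA_left (H : SimpleGraph V) (B : Finset V) (c : V → ℝ) :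
    sA H B (fun x _ => c x) = ∑ x ∈ B, c x * ((B.filter (H.Adj x)).card : ℝ) := by
  unfold sA
  refine Finset.sum_congr rfl (fun x _ => ?_)
  rw [← Finset.sum_filter, Finset.sum_const, nsmul_eq_mul, mul_comm]

lemma sA_left_le (H : SimpleGraph V) (B : Finset V) {c : V → ℝ} (hc : ∀ x, 0 ≤ c x) {d : ℝ}
    (hd : ∀ x, ((B.filter (H.Adj x)).card : ℝ) ≤ d) :
    sA H B (fun x _ => c x) ≤ d * ∑ x ∈ B, c x := by
  rw [sA_left, Finset.mul_sum]
  refine Finset.sum_le_sum (fun x _ => ?_)
  rw [mul_comm]
  exact mul_le_mul_of_nonneg_right (hd x) (hc x)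

lemma sA_left_eq (H : SimpleGraph V) (B : Finset V) {c : V → ℝ} {d : ℝ}
    (hd : ∀ x ∈ B, c x ≠ 0 → ((B.filter (H.Adj x)).card : ℝ) = d) :
    sA H B (fun x _ => c x) = d * ∑ x ∈ B, c x := by
  rw [sA_left, Finset.mul_sum]
  refine Finset.sum_congr rfl (fun x hx => ?_)
  by_cases h0 : c x = 0
  · simp [h0]
  · rw [hd x hx h0, mul_comm]

/-- The vertex boundary of a finite set. -/
noncomputable def vertexBoundary (G : SimpleGraph V) [G.LocallyFinite] (A : Finset V) : Finset V :=
  (A.biUnion fun x => G.neighborFinset x) \ A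

/-- The vertex-isoperimetric constant of `G` is positive. -/
def Nonamenable (G : SimpleGraph V) [G.LocallyFinite] : Prop :=
  ∃ h : ℝ, 0 < h ∧ ∀ A : Finset V, A.Nonempty →
    h * (A.card : ℝ) ≤ ((vertexBoundary G A).card : ℝ)

section Cheeger

variable {G : SimpleGraph V} [G.LocallyFinite]

lemma tv_indicator (S B : Finset V) (hSB : S ⊆ B)
    (hcl : ∀ x y, x ∈ S → G.Adj x y → y ∈ B) :
    ((vertexBoundary G S).card : ℝ) ≤
      sA G B (fun x y => |(if x ∈ S then (1 : ℝ) else 0) - (if y ∈ S then (1 : ℝ) else 0)|) := by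
  have hsub : vertexBoundary G S ⊆ B := by
    intro x hx
    simp only [vertexBoundary, mem_sdiff, mem_biUnion, mem_neighborFinset] at hx
    obtain ⟨⟨a, ha, hax⟩, _⟩ := hx
    exact hcl a x ha hax
  unfold sA
  have hnn : ∀ x ∈ B, ∀ y ∈ B, (0 : ℝ) ≤ if G.Adj x y then
      |(if x ∈ S then (1 : ℝ) else 0) - (if y ∈ S then (1 : ℝ) else 0)| else 0 := by
    intro x _ y _
    split_ifs <;> simp
  calc ((vertexBoundary G S).card : ℝ) = ∑ x ∈ vertexBoundary G S, (1 : ℝ) := by simp
    _ ≤ ∑ x ∈ vertexBoundary G S, ∑ y ∈ B, if G.Adj x y then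
          |(if x ∈ S then (1 : ℝ) else 0) - (if y ∈ S then (1 : ℝ) else 0)| else 0 := by
        refine Finset.sum_le_sum (fun x hx => ?_)
        have hx' := hx
        simp only [vertexBoundary, mem_sdiff, mem_biUnion, mem_neighborFinset] at hx
        obtain ⟨⟨a, ha, hax⟩, hxS⟩ := hx
        have haB : a ∈ B := hSB ha
        have h1 : (1 : ℝ) ≤ if G.Adj x a then
            |(if x ∈ S then (1 : ℝ) else 0) - (if a ∈ S then (1 : ℝ) else 0)| else 0 := by
          rw [if_pos hax.symm, if_neg hxS, if_pos ha]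
          simp
        refine h1.trans ?_
        exact Finset.single_le_sum (f := fun y => if G.Adj x y then
          |(if x ∈ S then (1 : ℝ) else 0) - (if y ∈ S then (1 : ℝ) else 0)| else 0)
          (fun y hy => hnn x (hsub hx') y hy) haB
    _ ≤ _ := by
        refine Finset.sum_le_sum_of_subset_of_nonneg hsub (fun x hx _ => ?_)
        exact Finset.sum_nonneg (fun y hy => hnn x hx y hy)

/-- Co-area: the total variation of a nonnegative function bounds its mass. -/
lemma tv_ge (B : Finset V) {h : ℝ} (hh : 0 < h)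
    (hiso : ∀ A : Finset V, A.Nonempty → h * (A.card : ℝ) ≤ ((vertexBoundary G A).card : ℝ)) :
    ∀ (n : ℕ) (u : V → ℝ), (∀ x, 0 ≤ u x) → (B.filter (fun x => u x ≠ 0)).card ≤ n →
      (∀ x, u x ≠ 0 → x ∈ B) → (∀ x y, u x ≠ 0 → G.Adj x y → y ∈ B) →
      h * ∑ x ∈ B, u x ≤ sA G B (fun x y => |u x - u y|) := by
  intro n
  induction n with
  | zero =>
    intro u hu hcard hsupp _
    have h0 : ∀ x ∈ B, u x = 0 := by
      intro x hx
      by_contra hne
      have : x ∈ B.filter (fun x => u x ≠ 0) := mem_filter.mpr ⟨hx, hne⟩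
      have h2 := Finset.card_pos.mpr ⟨x, this⟩
      omega
    rw [Finset.sum_eq_zero h0, mul_zero]
    exact sA_nonneg _ _ (fun _ _ => abs_nonneg _)
  | succ n ih =>
    intro u hu hcard hsupp hcl
    set S := B.filter (fun x => u x ≠ 0) with hS
    by_cases hSe : S.Nonempty
    · obtain ⟨x₀, hx₀, hmin⟩ := S.exists_min_image u hSe
      set a := u x₀ with ha
      have hx₀' : u x₀ ≠ 0 := (mem_filter.mp hx₀).2
      have ha0 : 0 < a := lt_of_le_of_ne (hu x₀) (Ne.symm hx₀')
      set ind : V → ℝ := fun x => if x ∈ S then (1 : ℝ) else 0 with hind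
      set u' : V → ℝ := fun x => u x - a * ind x with hu'
      have hmemS : ∀ x, x ∈ S ↔ u x ≠ 0 := by
        intro x
        rw [hS, mem_filter]
        exact ⟨fun h => h.2, fun h => ⟨hsupp x h, h⟩⟩
      have hu'0 : ∀ x, 0 ≤ u' x := by
        intro x
        by_cases hx : x ∈ S
        · have := hmin x hx
          simp only [hu', hind, if_pos hx]
          linarith
        · have hx0 : u x = 0 := by
            by_contra hne
            exact hx ((hmemS x).mpr hne)
          simp [hu', hind, hx, hx0]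
      have hu'supp : ∀ x, u' x ≠ 0 → x ∈ S := by
        intro x hx
        by_contra hxS
        have hx0 : u x = 0 := by
          by_contra hne
          exact hxS ((hmemS x).mpr hne)
        apply hx
        simp [hu', hind, hxS, hx0]
      have hcard' : (B.filter (fun x => u' x ≠ 0)).card ≤ n := by
        have hsub : B.filter (fun x => u' x ≠ 0) ⊆ S.erase x₀ := by
          intro x hx
          have hx2 := (mem_filter.mp hx).2
          refine mem_erase.mpr ⟨?_, hu'supp x hx2⟩
          rintro rfl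
          apply hx2
          simp [hu', hind, hx₀, ha]
        have h1 := Finset.card_le_card hsub
        rw [Finset.card_erase_of_mem hx₀] at h1
        omega
      have hih := ih u' hu'0 hcard' (fun x hx => hsupp x ((hmemS x).mp (hu'supp x hx)))
        (fun x y hx hxy => hcl x y ((hmemS x).mp (hu'supp x hx)) hxy)
      have hiso' := hiso S hSe
      have hSB : S ⊆ B := Finset.filter_subset _ _
      have htv := tv_indicator (G := G) S B hSB
        (fun x y hx hxy => hcl x y ((hmemS x).mp hx) hxy)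
      -- the decomposition of the variation
      have hdec : ∀ x y, |u x - u y| = a * |ind x - ind y| + |u' x - u' y| := by
        intro x y
        have hux : u x = u' x + a * ind x := by simp [hu']
        have huy : u y = u' y + a * ind y := by simp [hu']
        by_cases hx : x ∈ S <;> by_cases hy : y ∈ S
        · have e1 : ind x = 1 := by simp [hind, hx]
          have e2 : ind y = 1 := by simp [hind, hy]
          rw [hux, huy, e1, e2]
          simp
        · have e1 : ind x = 1 := by simp [hind, hx]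
          have e2 : ind y = 0 := by simp [hind, hy]
          have h0 : u' y = 0 := by
            by_contra hne
            exact hy (hu'supp y hne)
          rw [hux, huy, e1, e2, h0]
          have hnx := hu'0 x
          simp only [sub_zero, mul_one, mul_zero, add_zero, abs_one]
          rw [abs_of_nonneg (by linarith), abs_of_nonneg hnx]
          ring
        · have e1 : ind x = 0 := by simp [hind, hx]
          have e2 : ind y = 1 := by simp [hind, hy]
          have h0 : u' x = 0 := by
            by_contra hne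
            exact hx (hu'supp x hne)
          rw [hux, huy, e1, e2, h0]
          have hny := hu'0 y
          simp only [zero_sub, mul_one, mul_zero, add_zero, abs_neg, abs_one]
          rw [abs_of_nonneg (by linarith), abs_of_nonneg hny]
          ring
        · have e1 : ind x = 0 := by simp [hind, hx]
          have e2 : ind y = 0 := by simp [hind, hy]
          rw [hux, huy, e1, e2]
          simp
      have hsum : ∑ x ∈ B, u x = a * (S.card : ℝ) + ∑ x ∈ B, u' x := by
        have h1 : ∀ x ∈ B, u x = a * ind x + u' x := by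
          intro x _
          simp [hu']
        rw [Finset.sum_congr rfl h1, Finset.sum_add_distrib, ← Finset.mul_sum]
        congr 2
        rw [hind, Finset.sum_ite_mem, Finset.inter_eq_right.mpr hSB]
        simp
      have htot : sA G B (fun x y => |u x - u y|) =
          a * sA G B (fun x y => |ind x - ind y|) + sA G B (fun x y => |u' x - u' y|) := by
        rw [← sA_smul, ← sA_add]
        unfold sA
        refine Finset.sum_congr rfl (fun x _ => Finset.sum_congr rfl (fun y _ => ?_))
        simp only [hdec x y]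
      rw [htot, hsum, mul_add]
      have h3 : h * (a * (S.card : ℝ)) ≤ a * sA G B (fun x y => |ind x - ind y|) := by
        have h4 : h * (S.card : ℝ) ≤ sA G B (fun x y => |ind x - ind y|) := hiso'.trans htv
        nlinarith
      linarith
    · have hS0 : S = ∅ := Finset.not_nonempty_iff_eq_empty.mp hSe
      have h0 : ∀ x ∈ B, u x = 0 := by
        intro x hx
        by_contra hne
        have : x ∈ S := mem_filter.mpr ⟨hx, hne⟩
        rw [hS0] at this
        simp at this
      rw [Finset.sum_eq_zero h0, mul_zero]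
      exact sA_nonneg _ _ (fun _ _ => abs_nonneg _)

/-- Cheeger inequality for a nonnegative function, with all degrees at most `d`. -/
lemma cheeger (B : Finset V) {h d : ℝ} (hh : 0 < h) (hd0 : 0 < d)
    (hiso : ∀ A : Finset V, A.Nonempty → h * (A.card : ℝ) ≤ ((vertexBoundary G A).card : ℝ))
    (hdeg : ∀ x, ((B.filter (G.Adj x)).card : ℝ) ≤ d) (g : V → ℝ) (hg : ∀ x, 0 ≤ g x)
    (hsupp : ∀ x, g x ≠ 0 → x ∈ B) (hcl : ∀ x y, g x ≠ 0 → G.Adj x y → y ∈ B) :
    h ^ 2 * ∑ x ∈ B, g x ^ 2 ≤ 4 * d * sA G B (fun x y => (g x - g y) ^ 2) := by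
  have hu0 : ∀ x, (g x ^ 2 ≠ 0) → g x ≠ 0 := fun x hx h0 => hx (by simp [h0])
  have h1 := tv_ge (G := G) B hh hiso _ (fun x => g x ^ 2) (fun x => sq_nonneg _) le_rfl
    (fun x hx => hsupp x (hu0 x hx)) (fun x y hx hxy => hcl x y (hu0 x hx) hxy)
  set N := ∑ x ∈ B, g x ^ 2 with hN
  set D := sA G B (fun x y => (g x - g y) ^ 2) with hD
  set t := h / (4 * d) with ht
  have ht0 : 0 < t := by positivity
  have h2 : sA G B (fun x y => |g x ^ 2 - g y ^ 2|) ≤
      sA G B (fun x y => (1 / (2 * t)) * (g x - g y) ^ 2 + t * (g x ^ 2 + g y ^ 2)) := by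
    apply sA_mono
    intro x _ y _ _
    have e : |g x ^ 2 - g y ^ 2| = |g x - g y| * (g x + g y) := by
      have : g x ^ 2 - g y ^ 2 = (g x - g y) * (g x + g y) := by ring
      rw [this, abs_mul, abs_of_nonneg (add_nonneg (hg x) (hg y))]
    rw [e]
    have h5 : 0 ≤ (|g x - g y| / (2 * t) - (g x + g y) / 2) ^ 2 * (2 * t) :=
      mul_nonneg (sq_nonneg _) (by positivity)
    have h6 : (|g x - g y| / (2 * t) - (g x + g y) / 2) ^ 2 * (2 * t) =
        (1 / (2 * t)) * |g x - g y| ^ 2 + t / 2 * (g x + g y) ^ 2 - |g x - g y| * (g x + g y) := by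
      field_simp
      ring
    rw [h6, sq_abs] at h5
    have h7 : (g x + g y) ^ 2 ≤ 2 * (g x ^ 2 + g y ^ 2) := by nlinarith [sq_nonneg (g x - g y)]
    have h8 : t / 2 * (g x + g y) ^ 2 ≤ t * (g x ^ 2 + g y ^ 2) := by nlinarith
    linarith
  have h3 : sA G B (fun x y => (1 / (2 * t)) * (g x - g y) ^ 2 + t * (g x ^ 2 + g y ^ 2)) =
      (1 / (2 * t)) * D + t * (sA G B (fun x _ => g x ^ 2) + sA G B (fun _ y => g y ^ 2)) := by
    rw [sA_add, sA_smul, sA_smul, sA_add]
  have h4 : sA G B (fun _ y => g y ^ 2) = sA G B (fun x _ => g x ^ 2) := by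
    rw [sA_swap]
  have h5 : sA G B (fun x _ => g x ^ 2) ≤ d * N :=
    sA_left_le G B (fun x => sq_nonneg _) hdeg
  rw [h3, h4] at h2
  have h6 : h * N ≤ (1 / (2 * t)) * D + t * (2 * (d * N)) := by
    have h7 : t * (sA G B (fun x _ => g x ^ 2) + sA G B (fun x _ => g x ^ 2)) ≤ t * (2 * (d * N)) :=
      mul_le_mul_of_nonneg_left (by linarith) ht0.le
    linarith
  have h8 : t * (2 * (d * N)) = h / 2 * N := by
    rw [ht]
    field_simp
    ring
  have h9 : 1 / (2 * t) = 2 * d / h := by
    rw [ht]
    field_simp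
    ring
  rw [h8, h9] at h6
  have h10 : h / 2 * N ≤ 2 * d / h * D := by linarith
  have h11 : h * (h / 2 * N) ≤ h * (2 * d / h * D) := mul_le_mul_of_nonneg_left h10 hh.le
  have h12 : h * (2 * d / h * D) = 2 * d * D := by
    field_simp
  rw [h12] at h11
  nlinarith

end Cheeger

section Compare

variable {H G : SimpleGraph V}

/-- A sum over a set of neighbours is bounded by the local energy in the window. -/
lemma local_energy_le (B : Finset V) (g : V → ℝ) (hsupp : ∀ x, g x ≠ 0 → x ∈ B)
    (hcl : ∀ x y, g x ≠ 0 → H.Adj x y → y ∈ B) (w : V) (Z : Finset V)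
    (hZ : ∀ z ∈ Z, z = w ∨ H.Adj w z) :
    ∑ z ∈ Z, (g w - g z) ^ 2 ≤ ∑ z ∈ B, if H.Adj w z then (g w - g z) ^ 2 else 0 := by
  have h1 : ∑ z ∈ Z, (g w - g z) ^ 2 ≤ ∑ z ∈ Z ∩ B, if H.Adj w z then (g w - g z) ^ 2 else 0 := by
    rw [← Finset.sum_sdiff (Finset.inter_subset_left : Z ∩ B ⊆ Z)]
    have h2 : ∑ z ∈ Z \ (Z ∩ B), (g w - g z) ^ 2 = 0 := by
      apply Finset.sum_eq_zero
      intro z hz
      have hzZ : z ∈ Z := (mem_sdiff.mp hz).1
      have hzB : z ∉ B := by
        intro hzB
        exact (mem_sdiff.mp hz).2 (mem_inter.mpr ⟨hzZ, hzB⟩)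
      have hgz : g z = 0 := by
        by_contra hne
        exact hzB (hsupp z hne)
      rcases hZ z hzZ with rfl | hadj
      · simp
      · have hgw : g w = 0 := by
          by_contra hne
          exact hzB (hcl w z hne hadj)
        simp [hgz, hgw]
    rw [h2, zero_add]
    refine Finset.sum_le_sum (fun z hz => ?_)
    rcases hZ z (mem_inter.mp hz).1 with rfl | hadj
    · simp
    · rw [if_pos hadj]
  refine h1.trans ?_
  refine Finset.sum_le_sum_of_subset_of_nonneg Finset.inter_subset_right (fun z _ _ => ?_)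
  split_ifs
  · exact sq_nonneg _
  · exact le_rfl

/-- Comparison of the Dirichlet forms of `G` and of a graph `H` containing, for every `G`-edge
`xy`, the stars of `x` and of `y` over a common set `Z x` of `b` vertices. -/
lemma dirichlet_compare (B : Finset V) (g : V → ℝ) {b d : ℝ} (hd0 : 0 ≤ d)
    (hsupp : ∀ x, g x ≠ 0 → x ∈ B) (hcl : ∀ x y, g x ≠ 0 → H.Adj x y → y ∈ B)
    (hdeg : ∀ x, ((B.filter (G.Adj x)).card : ℝ) ≤ d)
    (Z : V → Finset V) (hb : ∀ x, ((Z x).card : ℝ) = b)
    (hZ1 : ∀ x, ∀ z ∈ Z x, z = x ∨ H.Adj x z)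
    (hZ2 : ∀ x y, G.Adj x y → ∀ z ∈ Z x, z = y ∨ H.Adj y z) :
    b * sA G B (fun x y => (g x - g y) ^ 2) ≤ 4 * d * sA H B (fun x y => (g x - g y) ^ 2) := by
  set e : V → ℝ := fun x => ∑ z ∈ B, if H.Adj x z then (g x - g z) ^ 2 else 0 with he
  have he0 : ∀ x, 0 ≤ e x := by
    intro x
    refine Finset.sum_nonneg (fun z _ => ?_)
    split_ifs
    · exact sq_nonneg _
    · exact le_rfl
  have hDH : sA H B (fun x y => (g x - g y) ^ 2) = ∑ x ∈ B, e x := rfl
  have hpt : ∀ x y, G.Adj x y → b * (g x - g y) ^ 2 ≤ 2 * e x + 2 * e y := by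
    intro x y hxy
    have h1 := local_energy_le B g hsupp hcl x (Z x) (hZ1 x)
    have h2 := local_energy_le B g hsupp hcl y (Z x) (hZ2 x y hxy)
    have h3 : ∑ z ∈ Z x, (g x - g y) ^ 2 ≤
        ∑ z ∈ Z x, (2 * (g x - g z) ^ 2 + 2 * (g y - g z) ^ 2) := by
      refine Finset.sum_le_sum (fun z _ => ?_)
      nlinarith [sq_nonneg ((g x - g z) - (g z - g y))]
    rw [Finset.sum_const, nsmul_eq_mul, hb x, Finset.sum_add_distrib, ← Finset.mul_sum,
      ← Finset.mul_sum] at h3
    linarith
  calc b * sA G B (fun x y => (g x - g y) ^ 2)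
      = sA G B (fun x y => b * (g x - g y) ^ 2) := (sA_smul _ _ _ _).symm
    _ ≤ sA G B (fun x y => 2 * e x + 2 * e y) := by
        apply sA_mono
        intro x _ y _ hxy
        exact hpt x y hxy
    _ = 2 * sA G B (fun x _ => e x) + 2 * sA G B (fun _ y => e y) := by
        rw [sA_add, sA_smul, sA_smul]
    _ = 4 * sA G B (fun x _ => e x) := by
        have : sA G B (fun _ y => e y) = sA G B (fun x _ => e x) := by rw [sA_swap]
        rw [this]
        ring
    _ ≤ 4 * (d * ∑ x ∈ B, e x) := by
        have := sA_left_le G B he0 hdeg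
        linarith
    _ = 4 * d * sA H B (fun x y => (g x - g y) ^ 2) := by
        rw [hDH]
        ring

end Compare

section Form

variable {H : SimpleGraph V}

/-- The bilinear form of the adjacency operator on the window. -/
noncomputable def qF (H : SimpleGraph V) (B : Finset V) (g g' : V → ℝ) : ℝ :=
  sA H B (fun x y => g x * g' y)

/-- The Dirichlet identity for a graph with all degrees equal to `d` near the support. -/
lemma dirichlet_eq (B : Finset V) (g : V → ℝ) {d : ℝ}
    (hdeg : ∀ x ∈ B, g x ≠ 0 → ((B.filter (H.Adj x)).card : ℝ) = d) :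
    sA H B (fun x y => (g x - g y) ^ 2) = 2 * d * ∑ x ∈ B, g x ^ 2 - 2 * qF H B g g := by
  have e : (fun x y => (g x - g y) ^ 2) =
      fun x y => (g x ^ 2 + g y ^ 2) - 2 * (g x * g y) := by
    funext x y
    ring
  rw [e, sA_sub, sA_add, sA_smul]
  have h1 : sA H B (fun x _ => g x ^ 2) = d * ∑ x ∈ B, g x ^ 2 := by
    apply sA_left_eq
    intro x hx hne
    exact hdeg x hx (fun h0 => hne (by simp [h0]))
  have h2 : sA H B (fun _ y => g y ^ 2) = sA H B (fun x _ => g x ^ 2) := by rw [sA_swap]
  rw [h2, h1]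
  unfold qF
  ring

lemma qF_comm (B : Finset V) (g g' : V → ℝ) : qF H B g g' = qF H B g' g := by
  unfold qF
  rw [sA_swap]
  have : (fun x y => g y * g' x) = fun x y => g' x * g y := by
    funext x y
    rw [mul_comm]
  rw [this]

lemma qF_add_left (B : Finset V) (g₁ g₂ g' : V → ℝ) :
    qF H B (fun x => g₁ x + g₂ x) g' = qF H B g₁ g' + qF H B g₂ g' := by
  unfold qF
  rw [← sA_add]
  have : (fun x y => (g₁ x + g₂ x) * g' y) = fun x y => g₁ x * g' y + g₂ x * g' y := by
    funext x y
    rw [add_mul]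
  rw [this]

lemma qF_smul_left (B : Finset V) (c : ℝ) (g g' : V → ℝ) :
    qF H B (fun x => c * g x) g' = c * qF H B g g' := by
  unfold qF
  rw [← sA_smul]
  have : (fun x y => (c * g x) * g' y) = fun x y => c * (g x * g' y) := by
    funext x y
    rw [mul_assoc]
  rw [this]

lemma qF_abs (B : Finset V) (g : V → ℝ) :
    |qF H B g g| ≤ qF H B (fun x => |g x|) (fun x => |g x|) := by
  unfold qF
  rw [abs_le]
  constructor
  · have h1 : sA H B (fun x y => (-1) * (g x * g y)) ≤ sA H B (fun x y => |g x| * |g y|) := by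
      apply sA_mono
      intro x _ y _ _
      rw [← abs_mul]
      have := neg_abs_le (g x * g y)
      linarith [neg_abs_le (g x * g y), le_abs_self (g x * g y), abs_neg (g x * g y),
        neg_le_abs (g x * g y)]
    rw [sA_smul] at h1
    linarith
  · apply sA_mono
    intro x _ y _ _
    rw [← abs_mul]
    exact le_abs_self _

lemma qF_expand (B : Finset V) (u f : V → ℝ) (c : ℝ) :
    qF H B (fun x => u x + c * f x) (fun x => u x + c * f x) =
      qF H B u u + 2 * c * qF H B u f + c ^ 2 * qF H B f f := by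
  have h1 : qF H B (fun x => u x + c * f x) (fun x => u x + c * f x) =
      qF H B u (fun x => u x + c * f x) + c * qF H B f (fun x => u x + c * f x) := by
    rw [qF_add_left, qF_smul_left]
  have h2 : ∀ a : V → ℝ, qF H B a (fun x => u x + c * f x) =
      qF H B a u + c * qF H B a f := by
    intro a
    rw [qF_comm, qF_add_left, qF_smul_left, qF_comm B u a, qF_comm B f a]
  rw [h1, h2, h2, qF_comm B f u]
  ring

/-- From the quadratic form on nonnegative functions to the operator norm. -/
lemma normBound_of_form [H.LocallyFinite] {L : ℝ} (hL : 0 < L)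
    (hform : ∀ (B : Finset V) (g : V → ℝ), (∀ x, 0 ≤ g x) → (∀ x, g x ≠ 0 → x ∈ B) →
      (∀ x y, g x ≠ 0 → H.Adj x y → y ∈ B) → qF H B g g ≤ L * ∑ x ∈ B, g x ^ 2) :
    NormBound H L := by
  intro f
  set S := f.support with hS
  set nb : Finset V → Finset V := fun A => A ∪ A.biUnion (fun x => H.neighborFinset x) with hnb
  set T := nb S with hT
  set B := nb T with hB
  have hnbsub : ∀ A, A ⊆ nb A := fun A => Finset.subset_union_left
  have hnbadj : ∀ A x y, x ∈ A → H.Adj x y → y ∈ nb A := by
    intro A x y hx hxy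
    refine Finset.mem_union_right _ (Finset.mem_biUnion.mpr ⟨x, hx, ?_⟩)
    exact (mem_neighborFinset _ _ _).mpr hxy
  set u : V → ℝ := fun x => ∑ y ∈ H.neighborFinset x, f y with hu
  have hfT : ∀ x, f x ≠ 0 → x ∈ T := by
    intro x hx
    exact hnbsub S (Finsupp.mem_support_iff.mpr hx)
  have huT : ∀ x, u x ≠ 0 → x ∈ T := by
    intro x hx
    obtain ⟨y, hy, hfy⟩ := Finset.exists_ne_zero_of_sum_ne_zero hx
    have hy' : H.Adj y x := ((mem_neighborFinset _ _ _).mp hy).symm
    exact hnbadj S y x (Finsupp.mem_support_iff.mpr hfy) hy'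
  have hTB : T ⊆ B := hnbsub T
  have hub : ∀ x, u x = ∑ y ∈ B, if H.Adj x y then f y else 0 := by
    intro x
    have h1 : ∀ y ∈ H.neighborFinset x, y ∉ B → f y = 0 := by
      intro y _ hyB
      by_contra hne
      exact hyB (hTB (hfT y hne))
    have h2 : ∑ y ∈ B, (if H.Adj x y then f y else 0) =
        ∑ y ∈ B.filter (H.Adj x), f y := by
      rw [Finset.sum_filter]
    rw [h2]
    simp only [hu]
    symm
    have h3 : B.filter (H.Adj x) ⊆ H.neighborFinset x := by
      intro y hy
      exact (mem_neighborFinset _ _ _).mpr (mem_filter.mp hy).2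
    apply Finset.sum_subset h3
    intro y hy hyn
    apply h1 y hy
    intro hyB
    exact hyn (mem_filter.mpr ⟨hyB, (mem_neighborFinset _ _ _).mp hy⟩)
  -- the norm of `u` is the form of `u` against `f`
  have hqu : qF H B u f = ∑ x ∈ B, u x ^ 2 := by
    unfold qF sA
    refine Finset.sum_congr rfl (fun x _ => ?_)
    have h1 : ∀ y ∈ B, (if H.Adj x y then u x * f y else 0) =
        u x * (if H.Adj x y then f y else 0) := by
      intro y _
      split_ifs <;> simp
    rw [Finset.sum_congr rfl h1, ← Finset.mul_sum, ← hub x]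
    ring
  -- the bound for signed functions supported in `T`
  have hsigned : ∀ g : V → ℝ, (∀ x, g x ≠ 0 → x ∈ T) →
      |qF H B g g| ≤ L * ∑ x ∈ B, g x ^ 2 := by
    intro g hg
    refine (qF_abs B g).trans ?_
    have h1 := hform B (fun x => |g x|) (fun x => abs_nonneg _)
      (fun x hx => hTB (hg x (fun h0 => hx (by simp [h0]))))
      (fun x y hx hxy => hnbadj T x y (hg x (fun h0 => hx (by simp [h0]))) hxy)
    simpa [sq_abs] using h1
  -- polarization
  set gp : V → ℝ := fun x => u x + L * f x with hgp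
  set gm : V → ℝ := fun x => u x + (-L) * f x with hgm
  have hgpT : ∀ x, gp x ≠ 0 → x ∈ T := by
    intro x hx
    by_contra hxT
    have h1 : u x = 0 := by
      by_contra hne
      exact hxT (huT x hne)
    have h2 : f x = 0 := by
      by_contra hne
      exact hxT (hfT x hne)
    apply hx
    simp [hgp, h1, h2]
  have hgmT : ∀ x, gm x ≠ 0 → x ∈ T := by
    intro x hx
    by_contra hxT
    have h1 : u x = 0 := by
      by_contra hne
      exact hxT (huT x hne)
    have h2 : f x = 0 := by
      by_contra hne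
      exact hxT (hfT x hne)
    apply hx
    simp [hgm, h1, h2]
  have hp := abs_le.mp (hsigned gp hgpT)
  have hm := abs_le.mp (hsigned gm hgmT)
  have hpe := qF_expand (H := H) B u f L
  have hme := qF_expand (H := H) B u f (-L)
  have hsump : ∑ x ∈ B, gp x ^ 2 + ∑ x ∈ B, gm x ^ 2 =
      2 * ∑ x ∈ B, u x ^ 2 + 2 * L ^ 2 * ∑ x ∈ B, f x ^ 2 := by
    rw [← Finset.sum_add_distrib, Finset.mul_sum, Finset.mul_sum, ← Finset.sum_add_distrib]
    refine Finset.sum_congr rfl (fun x _ => ?_)
    simp only [hgp, hgm]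
    ring
  have hdiff : 4 * L * ∑ x ∈ B, u x ^ 2 ≤ L * (2 * ∑ x ∈ B, u x ^ 2 + 2 * L ^ 2 * ∑ x ∈ B, f x ^ 2) := by
    rw [← hsump, mul_add, ← hqu]
    have e : qF H B gp gp - qF H B gm gm = 4 * L * qF H B u f := by
      change qF H B (fun x => u x + L * f x) (fun x => u x + L * f x) -
        qF H B (fun x => u x + (-L) * f x) (fun x => u x + (-L) * f x) = _
      rw [hpe, hme]
      ring
    linarith [hp.2, hm.1]
  have hfin : ∑ x ∈ B, u x ^ 2 ≤ L ^ 2 * ∑ x ∈ B, f x ^ 2 := by
    have h1 : L * (∑ x ∈ B, u x ^ 2) ≤ L * (L ^ 2 * ∑ x ∈ B, f x ^ 2) := by nlinarith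
    exact le_of_mul_le_mul_left h1 hL
  have ht1 : ∑' x, u x ^ 2 = ∑ x ∈ B, u x ^ 2 := by
    apply tsum_eq_sum
    intro x hx
    have : u x = 0 := by
      by_contra hne
      exact hx (hTB (huT x hne))
    simp [this]
  have ht2 : ∑' x, f x ^ 2 = ∑ x ∈ B, f x ^ 2 := by
    apply tsum_eq_sum
    intro x hx
    have : f x = 0 := by
      by_contra hne
      exact hx (hTB (hfT x hne))
    simp [this]
  change ∑' x, u x ^ 2 ≤ L ^ 2 * ∑' x, f x ^ 2
  rw [ht1, ht2]
  exact hfin

end Form

end Vale.Agent.Lib.P165
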