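import Vale.Agent.Lib.P165.DCT
import Vale.Agent.Lib.P165.Defs

/-!
From the infinite product measure to finite-volume expectations.
-/

namespace Vale.Agent.Lib.P165

open Finset SimpleGraph MeasureTheory ProbabilityTheory unitInterval
open scoped Classical ENNReal

set_option linter.unusedSectionVars false

variable {V : Type*} {G : SimpleGraph V}

/-- The finite trace of a configuration on a finite set of edges. -/
noncomputable def tr (F : Finset (Sym2 V)) (ω : Set (Sym2 V)) : Finset (Sym2 V) :=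
  F.filter (fun e => e ∈ ω)

lemma perc_tr_eq {F : Finset (Sym2 V)} (hF : (F : Set (Sym2 V)) ⊆ G.edgeSet) (p : I)
    {S : Finset (Sym2 V)} (hS : S ⊆ F) :
    percMeasure G p {ω | tr F ω = S} =
      ENNReal.ofReal ((p : ℝ) ^ #S * (1 - (p : ℝ)) ^ #(F \ S)) := by
  unfold percMeasure
  rw [setBernoulli_apply']
  have h1 : (fun P : Sym2 V → Prop => {i | P i}) ⁻¹' {ω | tr F ω = S}
      = Set.pi (F : Set (Sym2 V)) (fun e => {P : Prop | P ↔ e ∈ S}) := by
    ext P
    simp only [Set.mem_preimage, Set.mem_ofPred_eq, Set.mem_pi, Finset.mem_coe, tr]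
    constructor
    · intro h e he
      rw [← h]
      simp [he]
    · intro h
      ext e
      simp only [Finset.mem_filter]
      constructor
      · rintro ⟨h1, h2⟩
        exact (h e h1).mp h2
      · intro h2
        exact ⟨hS h2, (h e (hS h2)).mpr h2⟩
  rw [h1, Measure.infinitePi_pi _ (fun i _ => MeasurableSpace.measurableSet_top)]
  have hp0 : (0 : ℝ) ≤ p := p.2.1
  have hp1 : (0 : ℝ) ≤ 1 - p := by linarith [p.2.2]
  have h2 : ∀ e ∈ F, ((toNNReal p • Measure.dirac (e ∈ G.edgeSet) +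
      toNNReal (σ p) • Measure.dirac False) : Measure Prop) {P : Prop | P ↔ e ∈ S}
      = if e ∈ S then ENNReal.ofReal p else ENNReal.ofReal (1 - p) := by
    intro e he
    have heG : e ∈ G.edgeSet := hF he
    have e1 : ((toNNReal p : ENNReal)) = ENNReal.ofReal p := by
      rw [ENNReal.ofReal_eq_coe_nnreal hp0]
      rfl
    have e2 : ((toNNReal (σ p) : ENNReal)) = ENNReal.ofReal (1 - p) := by
      rw [ENNReal.ofReal_eq_coe_nnreal hp1]
      rfl
    simp only [Measure.add_apply, Measure.smul_apply]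
    rw [Measure.dirac_apply' _ MeasurableSpace.measurableSet_top,
      Measure.dirac_apply' _ MeasurableSpace.measurableSet_top]
    by_cases hS' : e ∈ S
    · simp [heG, hS', Set.indicator, ENNReal.smul_def, e1]
    · simp [heG, hS', Set.indicator, ENNReal.smul_def, e2]
  rw [Finset.prod_congr rfl h2, Finset.prod_ite, Finset.prod_const, Finset.prod_const]
  have e3 : F.filter (fun e => e ∈ S) = S := by
    ext e
    simp only [Finset.mem_filter]
    exact ⟨fun h => h.2, fun h => ⟨hS h, h⟩⟩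
  have e4 : F.filter (fun e => e ∉ S) = F \ S := by
    ext e
    simp only [Finset.mem_filter, Finset.mem_sdiff]
  rw [e3, e4, ENNReal.ofReal_mul (pow_nonneg hp0 _), ENNReal.ofReal_pow hp0, ENNReal.ofReal_pow hp1]

lemma measurableSet_tr_eq (F S : Finset (Sym2 V)) : MeasurableSet {ω : Set (Sym2 V) | tr F ω = S} := by
  by_cases hS : S ⊆ F
  · have h1 : {ω : Set (Sym2 V) | tr F ω = S}
        = ⋂ e ∈ F, {ω : Set (Sym2 V) | e ∈ ω ↔ e ∈ S} := by
      ext ω
      simp only [Set.mem_ofPred_eq, Set.mem_iInter, tr]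
      constructor
      · intro h e he
        rw [← h]
        simp [he]
      · intro h
        ext e
        simp only [Finset.mem_filter]
        constructor
        · rintro ⟨h1, h2⟩
          exact (h e h1).mp h2
        · intro h2
          exact ⟨hS h2, (h e (hS h2)).mpr h2⟩
    rw [h1]
    apply Finset.measurableSet_biInter
    intro e _
    by_cases he : e ∈ S
    · simpa [he] using measurableSet_mem e
    · simpa [he] using measurableSet_notMem e
  · have h1 : {ω : Set (Sym2 V) | tr F ω = S} = ∅ := by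
      ext ω
      simp only [Set.mem_ofPred_eq, Set.mem_empty_iff_false, iff_false]
      intro h
      apply hS
      rw [← h]
      exact Finset.filter_subset _ _
    rw [h1]
    exact MeasurableSet.empty

lemma tr_subset (F : Finset (Sym2 V)) (ω : Set (Sym2 V)) : tr F ω ⊆ F := Finset.filter_subset _ _

lemma cyl_eq_biUnion (F : Finset (Sym2 V)) (g : Finset (Sym2 V) → Prop) :
    {ω : Set (Sym2 V) | g (tr F ω)} =
      ⋃ S ∈ F.powerset.filter g, {ω : Set (Sym2 V) | tr F ω = S} := by
  ext ω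
  simp only [Set.mem_ofPred_eq, Set.mem_iUnion, Finset.mem_filter, Finset.mem_powerset]
  constructor
  · intro h
    exact ⟨tr F ω, ⟨tr_subset F ω, h⟩, rfl⟩
  · rintro ⟨S, ⟨_, h2⟩, rfl⟩
    exact h2

lemma measurableSet_cyl (F : Finset (Sym2 V)) (g : Finset (Sym2 V) → Prop) :
    MeasurableSet {ω : Set (Sym2 V) | g (tr F ω)} := by
  rw [cyl_eq_biUnion]
  exact Finset.measurableSet_biUnion _ (fun S _ => measurableSet_tr_eq F S)

/-- The law of an event determined by finitely many edges. -/
theorem perc_cyl {F : Finset (Sym2 V)} (hF : (F : Set (Sym2 V)) ⊆ G.edgeSet) (p : I)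
    (g : Finset (Sym2 V) → Prop) :
    percMeasure G p {ω | g (tr F ω)} = ENNReal.ofReal (Ex F p (fun S => if g S then 1 else 0)) := by
  rw [cyl_eq_biUnion, measure_biUnion_finset]
  · have hp0 : (0 : ℝ) ≤ p := p.2.1
    have hp1 : (p : ℝ) ≤ 1 := p.2.2
    rw [Finset.sum_congr rfl (fun S hS => perc_tr_eq hF p
      (Finset.mem_powerset.mp (Finset.mem_filter.mp hS).1))]
    rw [← ENNReal.ofReal_sum_of_nonneg (fun S _ => wt_nonneg hp0 hp1)]
    congr 1
    unfold Ex
    rw [Finset.sum_filter]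
    apply Finset.sum_congr rfl
    intro S _
    by_cases h : g S <;> simp [h]
  · intro S _ S' _ hne
    simp only [Function.onFun, Set.disjoint_iff_inter_eq_empty]
    ext ω
    simp only [Set.mem_inter_iff, Set.mem_ofPred_eq, Set.mem_empty_iff_false, iff_false]
    rintro ⟨h1, h2⟩
    exact hne (h1.symm.trans h2)
  · intro S _
    exact measurableSet_tr_eq F S

lemma tr_mono {F F' : Finset (Sym2 V)} (h : F ⊆ F') (ω : Set (Sym2 V)) : tr F ω ⊆ tr F' ω := by
  intro e he
  obtain ⟨h1, h2⟩ := Finset.mem_filter.mp he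
  exact Finset.mem_filter.mpr ⟨h h1, h2⟩

lemma openGraph_adj {ω : Set (Sym2 V)} {a b : V} :
    (openGraph G ω).Adj a b ↔ s(a, b) ∈ ω ∧ G.Adj a b := by
  simp only [openGraph, fromEdgeSet_adj, Set.mem_inter_iff, mem_edgeSet]
  constructor
  · rintro ⟨⟨h1, h2⟩, _⟩
    exact ⟨h1, h2⟩
  · rintro ⟨h1, h2⟩
    exact ⟨⟨h1, h2⟩, h2.ne⟩

lemma reachable_of_conn_tr {F : Finset (Sym2 V)} (hF : (F : Set (Sym2 V)) ⊆ G.edgeSet)
    {ω : Set (Sym2 V)} {x y : V} (h : Conn (tr F ω) x y) : (openGraph G ω).Reachable x y := by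
  refine Reachable.mono ?_ h
  intro a b hab
  rw [fromEdgeSet_adj] at hab
  rw [openGraph_adj]
  have h1 : s(a, b) ∈ tr F ω := by simpa using hab.1
  obtain ⟨h2, h3⟩ := Finset.mem_filter.mp h1
  exact ⟨h3, hF h2⟩

variable [G.LocallyFinite]

lemma ETouch_subset_edgeSet (B : Finset V) : (ETouch G B : Set (Sym2 V)) ⊆ G.edgeSet := by
  intro e he
  obtain ⟨x, _, y, hxy, rfl⟩ := mem_ETouch.mp he
  exact hxy

lemma ETouch_mono {B B' : Finset V} (h : B ⊆ B') : ETouch G B ⊆ ETouch G B' := by
  intro e he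
  obtain ⟨x, hx, y, hxy, rfl⟩ := mem_ETouch.mp he
  exact mem_ETouch.mpr ⟨x, h hx, y, hxy, rfl⟩

/-- The event that `o` is joined to the outside of `B`. -/
def ExtEv (G : SimpleGraph V) (B : Finset V) (o : V) : Set (Set (Sym2 V)) :=
  {ω | ∃ y, y ∉ B ∧ (openGraph G ω).Reachable o y}

lemma ext_of_walk {B : Finset V} {ω : Set (Sym2 V)} {a y : V} (w : (openGraph G ω).Walk a y)
    (hy : y ∉ B) : Ext (tr (ETouch G B) ω) B a := by
  induction w with
  | nil => exact ⟨_, hy, Conn.refl _ _⟩
  | @cons a b c hab w ih =>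
    by_cases ha : a ∈ B
    · obtain ⟨y', hy', hc⟩ := ih hy
      refine ⟨y', hy', Conn.trans (Conn.of_mem ?_) hc⟩
      obtain ⟨h1, h2⟩ := openGraph_adj.mp hab
      exact Finset.mem_filter.mpr ⟨mem_ETouch.mpr ⟨a, ha, b, h2, rfl⟩, h1⟩
    · exact ⟨a, ha, Conn.refl _ _⟩

lemma ExtEv_eq (B : Finset V) (o : V) :
    ExtEv G B o = {ω | Ext (tr (ETouch G B) ω) B o} := by
  ext ω
  simp only [ExtEv, Set.mem_ofPred_eq]
  constructor
  · rintro ⟨y, hy, hr⟩
    obtain ⟨w⟩ := hr
    exact ext_of_walk w hy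
  · rintro ⟨y, hy, hc⟩
    exact ⟨y, hy, reachable_of_conn_tr (ETouch_subset_edgeSet B) hc⟩

lemma measurableSet_ExtEv (B : Finset V) (o : V) : MeasurableSet (ExtEv G B o) := by
  rw [ExtEv_eq]
  exact measurableSet_cyl _ (fun S => Ext S B o)

lemma perc_ExtEv (B : Finset V) (o : V) (p : I) :
    percMeasure G p (ExtEv G B o) = ENNReal.ofReal (thetaB G B o p) := by
  rw [ExtEv_eq, perc_cyl (ETouch_subset_edgeSet B) p (fun S => Ext S B o)]
  rfl

/-- The vertices reached from `o` by walks of length at most `n`. -/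
noncomputable def ballUp (G : SimpleGraph V) [G.LocallyFinite] (o : V) (n : ℕ) : Finset V :=
  (Finset.range (n + 1)).biUnion (fun k => ball G o k)

lemma center_mem_ballUp (o : V) (n : ℕ) : o ∈ ballUp G o n :=
  Finset.mem_biUnion.mpr ⟨0, Finset.mem_range.mpr (by omega), by simp [ball]⟩

lemma ballUp_mono (o : V) {m n : ℕ} (h : m ≤ n) : ballUp G o m ⊆ ballUp G o n := by
  intro x hx
  obtain ⟨k, hk, hx'⟩ := Finset.mem_biUnion.mp hx
  exact Finset.mem_biUnion.mpr ⟨k, Finset.mem_range.mpr (by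
    have := Finset.mem_range.mp hk
    omega), hx'⟩

lemma mem_ballUp_succ {o a b : V} {n : ℕ} (ha : a ∈ ballUp G o n) (hab : G.Adj a b) :
    b ∈ ballUp G o (n + 1) := by
  obtain ⟨k, hk, hx'⟩ := Finset.mem_biUnion.mp ha
  refine Finset.mem_biUnion.mpr ⟨k + 1, Finset.mem_range.mpr (by
    have := Finset.mem_range.mp hk
    omega), ?_⟩
  simp only [ball, Finset.mem_biUnion]
  exact ⟨a, hx', (G.mem_neighborFinset _ _).mpr hab⟩

lemma exists_mem_ballUp_of_reachable {o y : V} (h : G.Reachable o y) : ∃ n, y ∈ ballUp G o n := by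
  obtain ⟨w⟩ := h
  suffices H : ∀ (a b : V) (w : G.Walk a b) (n : ℕ), a ∈ ballUp G o n → ∃ m, b ∈ ballUp G o m by
    exact H o y w 0 (center_mem_ballUp o 0)
  intro a b w
  induction w with
  | nil => exact fun n hn => ⟨n, hn⟩
  | cons hab w ih => exact fun n hn => ih (n + 1) (mem_ballUp_succ hn hab)

/-- The event that the cluster of `x` is infinite. -/
def InfEv (G : SimpleGraph V) (x : V) : Set (Set (Sym2 V)) :=
  {ω | ((openGraph G ω).connectedComponentMk x).supp.Infinite}

lemma openGraph_le (ω : Set (Sym2 V)) : openGraph G ω ≤ G := by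
  intro a b hab
  exact (openGraph_adj.mp hab).2

lemma InfEv_eq (x : V) : InfEv G x = ⋂ n, ExtEv G (ballUp G x n) x := by
  ext ω
  simp only [InfEv, Set.mem_iInter, Set.mem_ofPred_eq, ExtEv]
  constructor
  · intro h n
    obtain ⟨y, hy, hy'⟩ := (h.sdiff (ballUp G x n).finite_toSet).nonempty
    refine ⟨y, fun h' => hy' (Finset.mem_coe.mpr h'), ?_⟩
    exact (ConnectedComponent.exact hy).symm
  · intro h hfin
    have hex : ∀ y ∈ ((openGraph G ω).connectedComponentMk x).supp, ∃ n, y ∈ ballUp G x n := by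
      intro y hy
      exact exists_mem_ballUp_of_reachable
        ((ConnectedComponent.exact hy).symm.mono (openGraph_le ω))
    choose! N hN using hex
    obtain ⟨M, hM⟩ := (hfin.image N).bddAbove
    obtain ⟨y, hy, hr⟩ := h M
    apply hy
    have hy' : y ∈ ((openGraph G ω).connectedComponentMk x).supp :=
      ConnectedComponent.sound hr.symm
    exact ballUp_mono x (hM (Set.mem_image_of_mem N hy')) (hN y hy')

lemma ExtEv_antitone (x : V) : Antitone (fun n => ExtEv G (ballUp G x n) x) := by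
  intro m n hmn ω hω
  obtain ⟨y, hy, hr⟩ := hω
  exact ⟨y, fun h => hy (ballUp_mono x hmn h), hr⟩

lemma measurableSet_InfEv (x : V) : MeasurableSet (InfEv G x) := by
  rw [InfEv_eq]
  exact MeasurableSet.iInter (fun n => measurableSet_ExtEv _ _)

lemma isProb_perc (p : I) : IsProbabilityMeasure (percMeasure G p) := by
  unfold percMeasure
  infer_instance

/-- The measure of the event of an infinite cluster. -/
lemma perc_InfEv (x : V) (p : I) :
    percMeasure G p (InfEv G x) = ⨅ n, ENNReal.ofReal (thetaB G (ballUp G x n) x p) := by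
  have := isProb_perc (G := G) p
  rw [InfEv_eq, (ExtEv_antitone x).measure_iInter (fun n => (measurableSet_ExtEv _ _).nullMeasurableSet)
    ⟨0, measure_ne_top _ _⟩]
  simp only [perc_ExtEv]

end Vale.Agent.Lib.P165
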