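import Vale.Agent.Lib.P165.Uniq

/-!
The main criterion and its explicit form.
-/

namespace Vale.Agent.Lib.P165

open Finset SimpleGraph MeasureTheory ProbabilityTheory unitInterval
open scoped Classical ENNReal

set_option linter.unusedSectionVars false

variable {V : Type*} {G : SimpleGraph V} [G.LocallyFinite]

lemma InfEv_subset (o : V) : InfEv G o ⊆ {ω | 1 ≤ numInfClusters G ω} := by
  intro ω hω
  simp only [Set.mem_ofPred_eq, numInfClusters, Set.one_le_encard_iff_nonempty]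
  exact ⟨_, hω⟩

/-- Percolation at `p₁`. -/
theorem perc_pos {d : ℕ} (hd : G.IsRegularOfDegree d) {L : ℝ} (hL : NormBound G L) (hL0 : 0 < L)
    (o : V) {p₀ p₁ : ℝ} (h0 : 0 < p₀) (h01 : p₀ < p₁) (h1 : p₁ < 1) (hx : p₁ * L < 1)
    (hh : ∀ p, p₀ ≤ p → p ≤ p₁ → 0 ≤ hFun d L p) (p : I) (hp : (p : ℝ) = p₁) :
    0 < percMeasure G p {ω | 1 ≤ numInfClusters G ω} := by
  have hp1 : 0 < p₁ := h0.trans h01
  have h1p0 : 0 < 1 - p₀ := by linarith
  have h1p1 : 0 < 1 - p₁ := by linarith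
  set κ := (p₀ * (1 - p₁)) / ((1 - p₀) * p₁) with hκ
  have hκ1 : κ < 1 := by
    rw [hκ, div_lt_one (by positivity)]
    nlinarith
  have htheta : ∀ n, 1 - κ ≤ thetaB G (ballUp G o n) o p₁ := by
    intro n
    refine theta_lower (center_mem_ballUp o n) h0 h01.le h1 ?_
    intro q hq0 hq1 T _ hoT
    have hq : 0 ≤ q := (h0.trans_le hq0).le
    have hqL : q * L < 1 := lt_of_le_of_lt (mul_le_mul_of_nonneg_right hq1 hL0.le) hx
    exact phi_ge_one hd hL hL0 hoT hq (by linarith) hqL (hh q hq0 hq1)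
  have hmeas : ENNReal.ofReal (1 - κ) ≤ percMeasure G p (InfEv G o) := by
    rw [perc_InfEv]
    apply le_iInf
    intro n
    rw [hp]
    exact ENNReal.ofReal_le_ofReal (htheta n)
  have hpos : 0 < ENNReal.ofReal (1 - κ) := ENNReal.ofReal_pos.mpr (by linarith)
  exact (hpos.trans_le hmeas).trans_le (measure_mono (InfEv_subset o))

lemma numInf_full [Infinite V] (hconn : G.Connected) : numInfClusters G G.edgeSet = 1 := by
  have h : openGraph G G.edgeSet = G := by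
    unfold openGraph
    rw [Set.inter_self, fromEdgeSet_edgeSet]
  unfold numInfClusters
  rw [h, Set.encard_eq_one]
  obtain ⟨o⟩ := hconn.nonempty
  refine ⟨G.connectedComponentMk o, ?_⟩
  ext c
  simp only [Set.mem_ofPred_eq, Set.mem_singleton_iff]
  have hall : ∀ c : G.ConnectedComponent, c = G.connectedComponentMk o := by
    intro c
    obtain ⟨x, rfl⟩ := c.exists_rep
    exact ConnectedComponent.sound (hconn.preconnected x o)
  constructor
  · intro _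
    exact hall c
  · intro _
    have huniv : c.supp = Set.univ := by
      ext x
      simp only [Set.mem_univ, iff_true]
      exact (hall _).trans (hall c).symm
    rw [huniv]
    exact Set.infinite_univ

lemma one_mem_pu [Infinite V] (hconn : G.Connected) :
    percMeasure G (1 : I) {ω | numInfClusters G ω = 1} = 1 := by
  unfold percMeasure
  rw [setBernoulli_one]
  exact Measure.dirac_apply_of_mem (numInf_full hconn)

/-- The criterion in terms of the bracket `hFun`. -/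
theorem pc_lt_pu_of_criterion [Infinite V] (hconn : G.Connected)
    (htrans : ∀ x y, ∃ φ : G ≃g G, φ x = y) {d : ℕ} (hd : G.IsRegularOfDegree d) {L : ℝ}
    (hL : NormBound G L) (hL0 : 0 < L) {p₀ p₁ : ℝ} (h0 : 0 < p₀) (h01 : p₀ < p₁) (h1 : p₁ < 1)
    (hx : p₁ * L < 1) (hh : ∀ p, p₀ ≤ p → p ≤ p₁ → 0 ≤ hFun d L p) :
    pc G ≤ p₁ ∧ 1 / L ≤ pu G := by
  obtain ⟨o⟩ := hconn.nonempty
  have hp1 : 0 < p₁ := h0.trans h01
  constructor
  · set p : I := ⟨p₁, hp1.le, h1.le⟩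
    have hpos := perc_pos hd hL hL0 o h0 h01 h1 hx hh p rfl
    apply csInf_le
    · refine ⟨0, ?_⟩
      rintro _ ⟨q, _, rfl⟩
      exact q.2.1
    · exact ⟨p, hpos, rfl⟩
  · apply le_csInf
    · exact ⟨_, ⟨1, one_mem_pu hconn, rfl⟩⟩
    · rintro _ ⟨q, hq, rfl⟩
      by_contra hlt
      push Not at hlt
      have hqL : (q : ℝ) * L < 1 := by
        rwa [lt_div_iff₀ hL0] at hlt
      exact not_uniq hconn htrans hL hL0.le q hqL hq

/-- The polynomial inequality behind the explicit constant. -/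
lemma key_poly {τ : ℝ} (h1 : 2 / 3 ≤ τ) (h2 : τ ≤ 7 / 10) : τ ^ 2 / 4 + 2 ≤ 15 * (1 - τ) * τ ^ 2 := by
  nlinarith [mul_nonneg (sub_nonneg.mpr h1) (sub_nonneg.mpr h2),
    mul_nonneg (mul_nonneg (sub_nonneg.mpr h1) (sub_nonneg.mpr h2)) (by linarith : (0 : ℝ) ≤ τ)]

lemma key_ineq {d s t : ℝ} (hs : 0 < s) (hs2 : s ≤ 1 / 2) (ht1 : 2 / 3 * s ≤ t)
    (ht2 : t ≤ 7 / 10 * s) (hdeg : 15 ≤ d * s ^ 3) : t ^ 2 + 2 ≤ d * (s - t) * t ^ 2 := by
  set τ := t / s with hτ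
  have ht : t = τ * s := by
    rw [hτ]
    field_simp
  have h1 : 2 / 3 ≤ τ := by
    rw [hτ, le_div_iff₀ hs]
    exact ht1
  have h2 : τ ≤ 7 / 10 := by
    rw [hτ, div_le_iff₀ hs]
    exact ht2
  have h3 := key_poly h1 h2
  have hτ0 : 0 ≤ τ := by linarith
  have h4 : d * (s - t) * t ^ 2 = (d * s ^ 3) * ((1 - τ) * τ ^ 2) := by
    rw [ht]
    ring
  have h5 : 0 ≤ (1 - τ) * τ ^ 2 := mul_nonneg (by linarith) (sq_nonneg _)
  have h6 : 15 * ((1 - τ) * τ ^ 2) ≤ d * (s - t) * t ^ 2 := by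
    rw [h4]
    exact mul_le_mul_of_nonneg_right hdeg h5
  have h7 : t ^ 2 = τ ^ 2 * s ^ 2 := by
    rw [ht]
    ring
  have h8 : s ^ 2 ≤ 1 / 4 := by nlinarith
  have h9 : τ ^ 2 * s ^ 2 ≤ τ ^ 2 / 4 := by nlinarith [sq_nonneg τ]
  nlinarith

/-- The bracket is nonnegative in the explicit window. -/
lemma hFun_nonneg {d : ℕ} {ρ p : ℝ} (hρ : 1 / 2 ≤ ρ) (hρ1 : ρ < 1) (hdeg : 15 ≤ d * (1 - ρ) ^ 3)
    (h1 : 1 - 7 / 10 * (1 - ρ) ≤ p * (ρ * d)) (h2 : p * (ρ * d) ≤ 1 - 2 / 3 * (1 - ρ)) :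
    0 ≤ hFun d (ρ * d) p := by
  set s := 1 - ρ with hs
  have hs0 : 0 < s := by
    rw [hs]
    linarith
  have hs2 : s ≤ 1 / 2 := by
    rw [hs]
    linarith
  have hρ0 : 0 < ρ := by linarith
  have hd0 : (0 : ℝ) < d := by
    by_contra h
    have h' : (d : ℝ) = 0 := le_antisymm (not_lt.mp h) (Nat.cast_nonneg d)
    rw [h'] at hdeg
    norm_num at hdeg
  set x := p * (ρ * d) with hx
  set t := 1 - x with ht
  have ht1 : 2 / 3 * s ≤ t := by
    rw [ht]
    linarith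
  have ht2 : t ≤ 7 / 10 * s := by
    rw [ht]
    linarith
  have ht0 : 0 < t := by
    have : 0 < 2 / 3 * s := by positivity
    linarith
  have hkey := key_ineq hs0 hs2 ht1 ht2 hdeg
  have hx1 : x ≤ 1 := by linarith
  have hx0 : 0 < x := by linarith
  have hp : p = x / (ρ * d) := by
    rw [hx]
    field_simp
  have hA : (d : ℝ) / (ρ * d) = 1 / ρ := by
    field_simp
  unfold hFun Bub
  rw [hA]
  have e1 : 1 - p * (ρ * d) = t := by rw [← hx]
  rw [e1, ← hx]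
  set A := 1 / t ^ 2 - 1 - 2 * x with hAdef
  have ht035 : t ≤ 7 / 20 := by linarith
  have hA0 : 0 ≤ A := by
    have h3 : (1 : ℝ) / t ^ 2 ≥ 3 := by
      rw [ge_iff_le, le_div_iff₀ (by positivity)]
      nlinarith
    rw [hAdef]
    linarith
  have hA1 : A ≤ 1 / t ^ 2 := by
    rw [hAdef]
    linarith
  have hxρ : x / ρ ≤ 2 := by
    rw [div_le_iff₀ hρ0]
    linarith
  have hmain : 1 + 2 / t ^ 2 ≤ d * (s - t) := by
    have hpos : 0 < t ^ 2 := by positivity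
    rw [← sub_nonneg]
    have : d * (s - t) - (1 + 2 / t ^ 2) = (d * (s - t) * t ^ 2 - (t ^ 2 + 2)) / t ^ 2 := by
      field_simp
    rw [this]
    apply div_nonneg _ hpos.le
    linarith
  have hprod : x / ρ * A ≤ 2 / t ^ 2 := by
    calc x / ρ * A ≤ 2 * (1 / t ^ 2) :=
          mul_le_mul hxρ hA1 hA0 (by norm_num)
      _ = 2 / t ^ 2 := by ring
  have hfinal : 0 ≤ d * (x - ρ) - x - x / ρ * A := by
    have e2 : x - ρ = s - t := by
      rw [hs, ht]
      ring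
    rw [e2]
    linarith
  have hLpos : 0 < ρ * d := by positivity
  have e3 : p * ((d : ℝ) - 1) - 1 - p * (1 / ρ * A)
      = (d * (x - ρ) - x - x / ρ * A) / (ρ * d) := by
    rw [hp]
    field_simp
    ring
  rw [e3]
  exact div_nonneg hfinal hLpos.le

/-- Explicit form: if the degree is large compared with the inverse spectral gap then
`p_c < 1 / (ρ d) ≤ p_u`. -/
theorem pc_lt_pu_explicit [Infinite V] (hconn : G.Connected)
    (htrans : ∀ x y, ∃ φ : G ≃g G, φ x = y) {d : ℕ} (hd : G.IsRegularOfDegree d) {ρ : ℝ}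
    (hρ : 1 / 2 ≤ ρ) (hρ1 : ρ < 1) (hL : NormBound G (ρ * d)) (hdeg : 15 ≤ d * (1 - ρ) ^ 3) :
    pc G < 1 / (ρ * d) ∧ 1 / (ρ * d) ≤ pu G := by
  have hs0 : 0 < 1 - ρ := by linarith
  have hρ0 : 0 < ρ := by linarith
  have hd0 : (0 : ℝ) < d := by
    by_contra h
    have h' : (d : ℝ) = 0 := le_antisymm (not_lt.mp h) (Nat.cast_nonneg d)
    rw [h'] at hdeg
    norm_num at hdeg
  have hLpos : 0 < ρ * d := by positivity
  have hd15 : (15 : ℝ) ≤ d := by
    have h3 : (1 - ρ) ^ 3 ≤ 1 := pow_le_one₀ hs0.le (by linarith)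
    nlinarith
  have hL1 : 1 < ρ * d := by nlinarith
  set p₁ := (1 - 2 / 3 * (1 - ρ)) / (ρ * d) with hp₁
  set p₀ := (1 - 7 / 10 * (1 - ρ)) / (ρ * d) with hp₀
  have hnum0 : 0 < 1 - 7 / 10 * (1 - ρ) := by nlinarith
  have hnum1 : 0 < 1 - 2 / 3 * (1 - ρ) := by nlinarith
  have h0 : 0 < p₀ := div_pos hnum0 hLpos
  have h01 : p₀ < p₁ := by
    rw [hp₀, hp₁]
    exact div_lt_div_of_pos_right (by nlinarith) hLpos
  have hxp₁ : p₁ * (ρ * d) = 1 - 2 / 3 * (1 - ρ) := by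
    rw [hp₁]
    field_simp
  have hxp₀ : p₀ * (ρ * d) = 1 - 7 / 10 * (1 - ρ) := by
    rw [hp₀]
    field_simp
  have hp1lt : p₁ < 1 := by
    rw [hp₁, div_lt_one hLpos]
    nlinarith
  have hx : p₁ * (ρ * d) < 1 := by
    rw [hxp₁]
    nlinarith
  have hh : ∀ p, p₀ ≤ p → p ≤ p₁ → 0 ≤ hFun d (ρ * d) p := by
    intro p hp0 hp1
    apply hFun_nonneg hρ hρ1 hdeg
    · rw [← hxp₀]
      exact mul_le_mul_of_nonneg_right hp0 hLpos.le
    · rw [← hxp₁]
      exact mul_le_mul_of_nonneg_right hp1 hLpos.le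
  obtain ⟨h1, h2⟩ := pc_lt_pu_of_criterion hconn htrans hd hL hLpos h0 h01 hp1lt hx hh
  refine ⟨lt_of_le_of_lt h1 ?_, h2⟩
  rw [lt_div_iff₀ hLpos]
  exact hx

end Vale.Agent.Lib.P165
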