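import Vale.Agent.Lib.P165.Tree

/-!
Walk counts and the spectral bound; the lower bound on the expected boundary of the cluster.
-/

namespace Vale.Agent.Lib.P165

open Finset SimpleGraph
open scoped Classical

set_option linter.unusedSectionVars false

variable {V : Type*} {G : SimpleGraph V} [G.LocallyFinite]

/-- `L` bounds the operator norm of the adjacency operator on `ℓ²`, tested on
finitely supported functions. -/
def NormBound (G : SimpleGraph V) [G.LocallyFinite] (L : ℝ) : Prop :=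
  ∀ f : V →₀ ℝ, ∑' x, (∑ y ∈ G.neighborFinset x, f y) ^ 2 ≤ L ^ 2 * ∑' x, f x ^ 2

lemma Wk_zero (x y : V) : Wk G 0 x y = if x = y then 1 else 0 := by
  unfold Wk
  by_cases h : x = y
  · subst h
    simp [finsetWalkLength]
  · simp [finsetWalkLength, h]

lemma Wk_succ (k : ℕ) (x y : V) :
    Wk G (k + 1) x y = ∑ w ∈ G.neighborFinset x, Wk G k w y := by
  unfold Wk
  simp only [finsetWalkLength]
  rw [Finset.card_biUnion]
  · push_cast
    simp only [card_map]
    exact (Finset.sum_subtype (G.neighborFinset x) (p := fun w => w ∈ G.neighborSet x)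
      (fun w => by simp) (fun w => (#(G.finsetWalkLength k w y) : ℝ))).symm
  · rintro ⟨a, ha⟩ - ⟨b, hb⟩ - hab
    rw [Function.onFun, disjoint_iff_inf_le]
    intro p hp
    simp only [inf_eq_inter, mem_inter, mem_map] at hp
    obtain ⟨⟨px, _, rfl⟩, ⟨py, hpy, hp⟩⟩ := hp
    cases hp
    simp at hab

lemma Wk_comm (k : ℕ) (x y : V) : Wk G k x y = Wk G k y x := by
  unfold Wk
  congr 1
  apply Finset.card_bij (fun p _ => p.reverse)
  · intro p hp
    rw [mem_finsetWalkLength_iff] at hp ⊢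
    simpa using hp
  · intro p _ q _ h
    have h' := congrArg Walk.reverse h
    simpa using h'
  · intro p hp
    refine ⟨p.reverse, ?_, by simp⟩
    rw [mem_finsetWalkLength_iff] at hp ⊢
    simpa using hp

lemma Wk_succ' (k : ℕ) (z x : V) :
    Wk G (k + 1) z x = ∑ w ∈ G.neighborFinset x, Wk G k z w := by
  rw [Wk_comm, Wk_succ]
  apply Finset.sum_congr rfl
  intro w _
  exact Wk_comm k w z

/-- The set of endpoints of walks of length `k` from `z`. -/
noncomputable def ball (G : SimpleGraph V) [G.LocallyFinite] (z : V) : ℕ → Finset V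
  | 0 => {z}
  | k + 1 => (ball G z k).biUnion (fun w => G.neighborFinset w)

lemma mem_ball_of_Wk_ne_zero {k : ℕ} {z x : V} (h : Wk G k z x ≠ 0) : x ∈ ball G z k := by
  induction k generalizing x with
  | zero =>
    rw [Wk_zero] at h
    by_cases hzx : z = x
    · subst hzx
      simp [ball]
    · simp [hzx] at h
  | succ k ih =>
    rw [Wk_succ'] at h
    obtain ⟨w, hw, hw'⟩ := Finset.exists_ne_zero_of_sum_ne_zero h
    simp only [ball, Finset.mem_biUnion]
    refine ⟨w, ih hw', ?_⟩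
    rw [mem_neighborFinset] at hw ⊢
    exact hw.symm

lemma Wk_eq_zero_of_notMem {k : ℕ} {z x : V} (h : x ∉ ball G z k) : Wk G k z x = 0 := by
  by_contra hne
  exact h (mem_ball_of_Wk_ne_zero hne)

/-- The square of the `ℓ²` norm of the walk count vector. -/
noncomputable def Un (G : SimpleGraph V) [G.LocallyFinite] (k : ℕ) (z : V) : ℝ :=
  ∑' x, Wk G k z x ^ 2

lemma Wk_sq_summable (k : ℕ) (z : V) : Summable (fun x => Wk G k z x ^ 2) := by
  apply summable_of_ne_finset_zero (s := ball G z k)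
  intro x hx
  simp [Wk_eq_zero_of_notMem hx]

lemma Un_succ_le {L : ℝ} (hL : NormBound G L) (k : ℕ) (z : V) :
    Un G (k + 1) z ≤ L ^ 2 * Un G k z := by
  have hfin : (Function.support (fun x => Wk G k z x)).Finite := by
    apply (ball G z k).finite_toSet.subset
    intro x hx
    exact mem_ball_of_Wk_ne_zero hx
  have h := hL (Finsupp.ofSupportFinite _ hfin)
  simp only [Finsupp.ofSupportFinite_coe] at h
  unfold Un
  have e : (fun x => Wk G (k + 1) z x ^ 2) =
      fun x => (∑ y ∈ G.neighborFinset x, Wk G k z y) ^ 2 := by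
    funext x
    rw [Wk_succ']
  rw [e]
  exact h

lemma Un_zero (z : V) : Un G 0 z = 1 := by
  unfold Un
  rw [tsum_eq_single z]
  · simp [Wk_zero]
  · intro x hx
    simp [Wk_zero, Ne.symm hx]

lemma Un_one {d : ℕ} (hd : G.IsRegularOfDegree d) (z : V) : Un G 1 z = d := by
  unfold Un
  have h1 : ∀ x, Wk G 1 z x = if x ∈ G.neighborFinset z then 1 else 0 := by
    intro x
    rw [Wk_succ', Finset.sum_congr rfl (fun w _ => Wk_zero z w)]
    rw [Finset.sum_ite_eq]
    simp [adj_comm]
  rw [tsum_eq_sum (s := G.neighborFinset z)]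
  · rw [Finset.sum_congr rfl (fun x hx => by rw [h1, if_pos hx])]
    simp [G.card_neighborFinset_eq_degree, hd z]
  · intro x hx
    simp [h1, hx]

lemma Un_nonneg (k : ℕ) (z : V) : 0 ≤ Un G k z := tsum_nonneg (fun _ => sq_nonneg _)

lemma Un_le_one_step {d : ℕ} (hd : G.IsRegularOfDegree d) {L : ℝ} (hL : NormBound G L)
    (k : ℕ) (z : V) : Un G (k + 1) z ≤ d * (L ^ 2) ^ k := by
  induction k with
  | zero => simp [Un_one hd]
  | succ k ih =>
    calc Un G (k + 1 + 1) z ≤ L ^ 2 * Un G (k + 1) z := Un_succ_le hL _ _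
      _ ≤ L ^ 2 * (d * (L ^ 2) ^ k) := mul_le_mul_of_nonneg_left ih (sq_nonneg _)
      _ = d * (L ^ 2) ^ (k + 1) := by ring

lemma Un_le_pow {L : ℝ} (hL : NormBound G L) (k : ℕ) (z : V) : Un G k z ≤ (L ^ 2) ^ k := by
  induction k with
  | zero => simp [Un_zero]
  | succ k ih =>
    calc Un G (k + 1) z ≤ L ^ 2 * Un G k z := Un_succ_le hL _ _
      _ ≤ L ^ 2 * (L ^ 2) ^ k := mul_le_mul_of_nonneg_left ih (sq_nonneg _)
      _ = (L ^ 2) ^ (k + 1) := by ring

lemma Wk_le_pow {L : ℝ} (hL : NormBound G L) (hL0 : 0 ≤ L) (k : ℕ) (z x : V) :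
    Wk G k z x ≤ L ^ k := by
  have h1 : Wk G k z x ^ 2 ≤ Un G k z :=
    (Wk_sq_summable k z).le_tsum x (fun _ _ => sq_nonneg _)
  have h2 := Un_le_pow hL k z
  have h3 : Wk G k z x ^ 2 ≤ (L ^ k) ^ 2 := by
    calc Wk G k z x ^ 2 ≤ (L ^ 2) ^ k := h1.trans h2
      _ = (L ^ k) ^ 2 := by ring
  exact (sq_le_sq₀ (Wk_nonneg _ _ _) (pow_nonneg hL0 _)).mp h3

lemma sum_sq_le_Un (T : Finset V) (k : ℕ) (z : V) : ∑ x ∈ T, Wk G k z x ^ 2 ≤ Un G k z :=
  (Wk_sq_summable k z).sum_le_tsum T (fun _ _ => sq_nonneg _)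

/-- The pair sum over adjacent vertices, first arm of positive length. -/
lemma pair_sum_le_aux {d : ℕ} (hd : G.IsRegularOfDegree d) {L : ℝ} (hL : NormBound G L)
    (hL0 : 0 ≤ L) (T : Finset V) (z : V) (a b : ℕ) :
    ∑ q ∈ prs G T, Wk G (a + 1) z q.1 * Wk G b z q.2 ≤ d * L ^ (a + b) := by
  have h1 : ∑ q ∈ prs G T, Wk G (a + 1) z q.1 * Wk G b z q.2
      ≤ ∑ x ∈ T, Wk G (a + 1) z x * Wk G (b + 1) z x := by
    rw [sum_prs G T (fun x y => Wk G (a + 1) z x * Wk G b z y)]
    apply Finset.sum_le_sum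
    intro x _
    rw [Wk_succ' b z x, Finset.mul_sum]
    apply Finset.sum_le_sum
    intro y _
    split_ifs
    · exact le_refl _
    · exact mul_nonneg (Wk_nonneg _ _ _) (Wk_nonneg _ _ _)
  have h2 := Finset.sum_mul_sq_le_sq_mul_sq T (fun x => Wk G (a + 1) z x)
    (fun x => Wk G (b + 1) z x)
  have h3 : (∑ x ∈ T, Wk G (a + 1) z x ^ 2) * ∑ x ∈ T, Wk G (b + 1) z x ^ 2
      ≤ (d * (L ^ 2) ^ a) * (d * (L ^ 2) ^ b) := by
    apply mul_le_mul
    · exact (sum_sq_le_Un T _ z).trans (Un_le_one_step hd hL a z)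
    · exact (sum_sq_le_Un T _ z).trans (Un_le_one_step hd hL b z)
    · exact Finset.sum_nonneg (fun _ _ => sq_nonneg _)
    · have : (0 : ℝ) ≤ d := Nat.cast_nonneg d
      positivity
  have h4 : (∑ x ∈ T, Wk G (a + 1) z x * Wk G (b + 1) z x) ^ 2 ≤ (d * L ^ (a + b)) ^ 2 := by
    calc _ ≤ _ := h2
      _ ≤ _ := h3
      _ = (d * L ^ (a + b)) ^ 2 := by ring
  have h5 : 0 ≤ ∑ x ∈ T, Wk G (a + 1) z x * Wk G (b + 1) z x :=
    Finset.sum_nonneg (fun _ _ => mul_nonneg (Wk_nonneg _ _ _) (Wk_nonneg _ _ _))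
  have h6 : (0 : ℝ) ≤ d * L ^ (a + b) := mul_nonneg (Nat.cast_nonneg d) (pow_nonneg hL0 _)
  exact h1.trans ((sq_le_sq₀ h5 h6).mp h4)

lemma pair_sum_le {d : ℕ} (hd : G.IsRegularOfDegree d) {L : ℝ} (hL : NormBound G L)
    (hL0 : 0 ≤ L) (T : Finset V) (z : V) (a b : ℕ) (hab : 1 ≤ a + b) :
    ∑ q ∈ prs G T, Wk G a z q.1 * Wk G b z q.2 ≤ d * L ^ (a + b - 1) := by
  rcases a with _ | a
  · rcases b with _ | b
    · omega
    · have h1 := prs_swap_sum (G := G) T (fun q => Wk G (b + 1) z q.1 * Wk G 0 z q.2)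
      simp only [Prod.fst_swap, Prod.snd_swap] at h1
      have h2 : ∑ q ∈ prs G T, Wk G 0 z q.1 * Wk G (b + 1) z q.2
          = ∑ q ∈ prs G T, Wk G (b + 1) z q.1 * Wk G 0 z q.2 := by
        rw [← h1]
        apply Finset.sum_congr rfl
        intro q _
        ring
      rw [h2]
      have h3 := pair_sum_le_aux hd hL hL0 T z b 0
      simpa using h3
  · have h3 := pair_sum_le_aux hd hL hL0 T z a b
    have e : a + 1 + b - 1 = a + b := by omega
    rw [e]
    exact h3

lemma chi_eq_sum_tau (T : Finset V) (o : V) (p : ℝ) :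
    chi G T o p = ∑ z ∈ T, tau G T o z p := by
  unfold chi tau
  rw [← Ex_sum]
  apply Ex_congr
  intro ω _
  unfold Cl gz
  rw [Finset.card_filter]
  push_cast
  rfl

/-- Real sum of two geometric arms, with at least two steps in total. -/
lemma sum_two_le {x : ℝ} (hx : 0 ≤ x) (hx1 : x < 1) (n : ℕ) :
    ∑ a ∈ Finset.range (n + 2), ∑ b ∈ Finset.range (n + 2), (if 2 ≤ a + b then x ^ (a + b) else 0)
      ≤ 1 / (1 - x) ^ 2 - 1 - 2 * x := by
  have h1x : 0 < 1 - x := by linarith
  set S := ∑ a ∈ Finset.range (n + 2), x ^ a with hS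
  have hS0 : 0 ≤ S := Finset.sum_nonneg (fun _ _ => pow_nonneg hx _)
  have hS1 : S ≤ 1 / (1 - x) := by
    rw [le_div_iff₀ h1x]
    have := mul_neg_geom_sum x (n + 2)
    have h2 : (1 - x) * S = 1 - x ^ (n + 2) := by
      rw [hS]
      exact this
    have h3 : 0 ≤ x ^ (n + 2) := pow_nonneg hx _
    nlinarith
  have hS2 : S ^ 2 ≤ 1 / (1 - x) ^ 2 := by
    calc S ^ 2 ≤ (1 / (1 - x)) ^ 2 := pow_le_pow_left₀ hS0 hS1 2
      _ = 1 / (1 - x) ^ 2 := by rw [div_pow, one_pow]
  have hsplit : S ^ 2 = ∑ a ∈ Finset.range (n + 2), ∑ b ∈ Finset.range (n + 2),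
      ((if 2 ≤ a + b then x ^ (a + b) else 0) + (if a + b < 2 then x ^ (a + b) else 0)) := by
    rw [sq, hS, Finset.sum_mul_sum]
    apply Finset.sum_congr rfl
    intro a _
    apply Finset.sum_congr rfl
    intro b _
    by_cases h : 2 ≤ a + b
    · rw [if_pos h, if_neg (by omega), pow_add]
      ring
    · rw [if_neg h, if_pos (by omega), pow_add]
      ring
  have hlow : ∑ a ∈ Finset.range (n + 2), ∑ b ∈ Finset.range (n + 2),
      (if a + b < 2 then x ^ (a + b) else 0) = 1 + 2 * x := by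
    rw [← Finset.sum_product' (f := fun a b => if a + b < 2 then x ^ (a + b) else 0),
      ← Finset.sum_filter]
    have hfil : ((Finset.range (n + 2)) ×ˢ (Finset.range (n + 2))).filter
        (fun c : ℕ × ℕ => c.1 + c.2 < 2) = {(0, 0), (0, 1), (1, 0)} := by
      ext ⟨a, b⟩
      simp only [Finset.mem_filter, Finset.mem_product, Finset.mem_range, Finset.mem_insert,
        Finset.mem_singleton, Prod.mk.injEq]
      omega
    rw [hfil]
    rw [Finset.sum_insert (by simp), Finset.sum_insert (by simp), Finset.sum_singleton]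
    simp
    ring
  have hsum : ∑ a ∈ Finset.range (n + 2), ∑ b ∈ Finset.range (n + 2),
      (if 2 ≤ a + b then x ^ (a + b) else 0) = S ^ 2 - (1 + 2 * x) := by
    rw [hsplit, ← hlow]
    simp only [Finset.sum_add_distrib]
    ring
  rw [hsum]
  linarith

/-- The bound on the loop correction. -/
noncomputable def Bub (d : ℕ) (L p : ℝ) : ℝ :=
  (d / L) * (1 / (1 - p * L) ^ 2 - 1 - 2 * (p * L))

theorem sum_bb_le {d : ℕ} (hd : G.IsRegularOfDegree d) {L : ℝ} (hL : NormBound G L)
    (hL0 : 0 < L) {T : Finset V} {o : V} (ho : o ∈ T) {p : ℝ} (hp : 0 ≤ p) (hp1 : p ≤ 1)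
    (hx : p * L < 1) :
    ∑ q ∈ prs G T, bb G T o p q ≤ chi G T o p * Bub d L p := by
  set n := #(EIn G T)
  set K : ℝ := ∑ a ∈ Finset.range (n + 2), ∑ b ∈ Finset.range (n + 2),
      (if 2 ≤ a + b then p ^ (a + b) * (d * L ^ (a + b - 1)) else 0) with hK
  have hKle : K ≤ Bub d L p := by
    have h1 : K = (d / L) * ∑ a ∈ Finset.range (n + 2), ∑ b ∈ Finset.range (n + 2),
        (if 2 ≤ a + b then (p * L) ^ (a + b) else 0) := by
      rw [hK, Finset.mul_sum]
      apply Finset.sum_congr rfl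
      intro a _
      rw [Finset.mul_sum]
      apply Finset.sum_congr rfl
      intro b _
      by_cases h : 2 ≤ a + b
      · rw [if_pos h, if_pos h, mul_pow]
        obtain ⟨k, hk⟩ : ∃ k, a + b = k + 1 := ⟨a + b - 1, by omega⟩
        rw [hk, Nat.add_sub_cancel, pow_succ L k]
        field_simp
      · simp [h]
    rw [h1]
    unfold Bub
    apply mul_le_mul_of_nonneg_left
    · exact sum_two_le (mul_nonneg hp hL0.le) hx n
    · have : (0 : ℝ) ≤ d := Nat.cast_nonneg d
      positivity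
  have hstep : ∑ q ∈ prs G T, bb G T o p q ≤ ∑ z ∈ T, tau G T o z p * K := by
    calc ∑ q ∈ prs G T, bb G T o p q
        ≤ ∑ q ∈ prs G T, ∑ z ∈ T, ∑ a ∈ Finset.range (n + 2), ∑ b ∈ Finset.range (n + 2),
          Wk G a z q.1 * Wk G b z q.2 *
            (if 2 ≤ a + b then p ^ (a + b) * tau G T o z p else 0) :=
          Finset.sum_le_sum (fun q hq => bb_le_sum ho hq n le_rfl hp hp1)
      _ = ∑ z ∈ T, ∑ a ∈ Finset.range (n + 2), ∑ b ∈ Finset.range (n + 2),
            (∑ q ∈ prs G T, Wk G a z q.1 * Wk G b z q.2) *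
              (if 2 ≤ a + b then p ^ (a + b) * tau G T o z p else 0) := by
          rw [Finset.sum_comm]
          apply Finset.sum_congr rfl
          intro z _
          rw [Finset.sum_comm]
          apply Finset.sum_congr rfl
          intro a _
          rw [Finset.sum_comm]
          apply Finset.sum_congr rfl
          intro b _
          rw [Finset.sum_mul]
      _ ≤ ∑ z ∈ T, tau G T o z p * K := by
          apply Finset.sum_le_sum
          intro z _
          rw [hK, Finset.mul_sum]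
          apply Finset.sum_le_sum
          intro a _
          rw [Finset.mul_sum]
          apply Finset.sum_le_sum
          intro b _
          have hτ := tau_nonneg (G := G) T o z hp hp1
          by_cases h : 2 ≤ a + b
          · rw [if_pos h, if_pos h]
            have h2 := pair_sum_le hd hL hL0.le T z a b (by omega)
            have h3 : 0 ≤ p ^ (a + b) * tau G T o z p := mul_nonneg (pow_nonneg hp _) hτ
            calc _ ≤ (d * L ^ (a + b - 1)) * (p ^ (a + b) * tau G T o z p) :=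
                  mul_le_mul_of_nonneg_right h2 h3
              _ = _ := by ring
          · simp [h]
  rw [← Finset.sum_mul, ← chi_eq_sum_tau] at hstep
  have hχ : 0 ≤ chi G T o p :=
    Ex_nonneg hp hp1 (fun ω _ => by positivity)
  exact hstep.trans (mul_le_mul_of_nonneg_left hKle hχ)

/-- The bracket appearing in the main inequality. -/
noncomputable def hFun (d : ℕ) (L p : ℝ) : ℝ :=
  p * ((d : ℝ) - 1) - 1 - p * Bub d L p

/-- The key inequality: the expected boundary of the cluster is at least `1/p`, for every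
finite `T` containing `o`. -/
theorem phi_ge_one {d : ℕ} (hd : G.IsRegularOfDegree d) {L : ℝ} (hL : NormBound G L)
    (hL0 : 0 < L) {T : Finset V} {o : V} (ho : o ∈ T) {p : ℝ} (hp : 0 ≤ p) (hp1 : p ≤ 1)
    (hx : p * L < 1) (hh : 0 ≤ hFun d L p) :
    1 ≤ p * Ex (EIn G T) p (Mc G T o) := by
  have h1 := phi_identity hd ho hp hp1
  have h2 := sum_bb_le hd hL hL0 ho hp hp1 hx
  have hχ : 0 ≤ chi G T o p :=
    Ex_nonneg hp hp1 (fun ω _ => by positivity)
  have h3 : 0 ≤ chi G T o p * hFun d L p := mul_nonneg hχ hh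
  unfold hFun at h3
  have h4 : p * ∑ q ∈ prs G T, bb G T o p q ≤ p * (chi G T o p * Bub d L p) :=
    mul_le_mul_of_nonneg_left h2 hp
  nlinarith

end Vale.Agent.Lib.P165
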