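import Vale.Agent.Lib.P165.Cluster

/-!
The tree-graph union bound: two vertices in the cluster of `o` force two disjoint open arms.
-/

namespace Vale.Agent.Lib.P165

open Finset SimpleGraph
open scoped Classical

set_option linter.unusedSectionVars false

variable {V : Type*}

lemma first_hit {H : SimpleGraph V} {o x : V} (π : H.Walk o x) {y o' : V} (w : H.Walk y o')
    (ho' : o' ∈ π.support) :
    ∃ z ∈ π.support, ∃ β : H.Walk y z, ∀ v ∈ β.support, v ∈ π.support → v = z := by
  induction w with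
  | nil => exact ⟨_, ho', Walk.nil, by simp⟩
  | @cons a b c hab w ih =>
    by_cases ha : a ∈ π.support
    · exact ⟨a, ha, Walk.nil, by simp⟩
    · obtain ⟨z, hz, β, hβ⟩ := ih ho'
      refine ⟨z, hz, Walk.cons hab β, ?_⟩
      intro v hv hvπ
      rw [Walk.support_cons, List.mem_cons] at hv
      rcases hv with rfl | hv
      · exact absurd hvπ ha
      · exact hβ v hv hvπ

lemma edge_not_both {H : SimpleGraph V} {a b c d z : V} (π : H.Walk a b) (β : H.Walk c d)
    (h : ∀ v ∈ β.support, v ∈ π.support → v = z) {e : Sym2 V} (h1 : e ∈ π.edges)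
    (h2 : e ∈ β.edges) : False := by
  induction e using Sym2.ind with
  | _ u v =>
    have hu := h u (β.fst_mem_support_of_mem_edges h2) (π.fst_mem_support_of_mem_edges h1)
    have hv := h v (β.snd_mem_support_of_mem_edges h2) (π.snd_mem_support_of_mem_edges h1)
    exact (π.adj_of_mem_edges h1).ne (hu.trans hv.symm)

theorem tree_lemma {H : SimpleGraph V} {o x y : V} (hx : H.Reachable o x) (hy : H.Reachable o y) :
    ∃ z, ∃ (α : H.Walk z x) (β : H.Walk z y) (γ : H.Walk o z),
      α.edges.Nodup ∧ β.edges.Nodup ∧ (∀ e ∈ α.edges, e ∉ β.edges) ∧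
      (∀ e ∈ γ.edges, e ∉ α.edges ∧ e ∉ β.edges) := by
  obtain ⟨π, hπ⟩ := hx.exists_isPath
  obtain ⟨w⟩ := hy.symm
  obtain ⟨z, hz, β', hβ'⟩ := first_hit π w π.start_mem_support
  have hβsub : ∀ e ∈ (β'.bypass.reverse).edges, e ∈ β'.edges := by
    intro e he
    rw [Walk.edges_reverse, List.mem_reverse] at he
    exact (Walk.edges_bypass_sublist_edges β').subset he
  refine ⟨z, π.dropUntil z hz, β'.bypass.reverse, π.takeUntil z hz, ?_, ?_, ?_, ?_⟩
  · exact (hπ.isTrail.dropUntil hz).edges_nodup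
  · exact (β'.bypass_isPath.reverse).isTrail.edges_nodup
  · intro e he he'
    exact edge_not_both π β' hβ' (π.edges_dropUntil_subset_edges hz he) (hβsub e he')
  · intro e he
    refine ⟨fun he' => ?_, fun he' => ?_⟩
    · exact hπ.isTrail.disjoint_edges_takeUntil_dropUntil hz he he'
    · exact edge_not_both π β' hβ' (π.edges_takeUntil_subset_edges hz he) (hβsub e he')

/-- The edge set of a pair of arms. -/
noncomputable def armSet {G : SimpleGraph V} {z x y : V} (α : G.Walk z x) (β : G.Walk z y) :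
    Finset (Sym2 V) :=
  α.edges.toFinset ∪ β.edges.toFinset

theorem arms_exist {G : SimpleGraph V} {ω : Finset (Sym2 V)} (hω : (ω : Set (Sym2 V)) ⊆ G.edgeSet)
    {o x y : V} (hx : Conn ω o x) (hy : Conn ω o y) :
    ∃ z, ∃ (α : G.Walk z x) (β : G.Walk z y), α.edges.Nodup ∧ β.edges.Nodup ∧
      (∀ e ∈ α.edges, e ∉ β.edges) ∧ armSet α β ⊆ ω ∧ Conn (ω \ armSet α β) o z := by
  obtain ⟨z, α, β, γ, h1, h2, h3, h4⟩ := tree_lemma hx hy
  have hH : ∀ {a b : V} (w : (fromEdgeSet (ω : Set (Sym2 V))).Walk a b),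
      ∀ e ∈ w.edges, e ∈ ω := by
    intro a b w e he
    have := w.edges_subset_edgeSet he
    rw [edgeSet_fromEdgeSet] at this
    exact_mod_cast this.1
  have hG : ∀ {a b : V} (w : (fromEdgeSet (ω : Set (Sym2 V))).Walk a b),
      ∀ e ∈ w.edges, e ∈ G.edgeSet := fun w e he => hω (by exact_mod_cast hH w e he)
  refine ⟨z, α.transfer G (hG α), β.transfer G (hG β), ?_, ?_, ?_, ?_, ?_⟩
  · simpa using h1
  · simpa using h2
  · simpa using h3
  · intro e he
    simp only [armSet, Finset.mem_union, List.mem_toFinset, Walk.edges_transfer] at he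
    rcases he with he | he
    · exact hH α e he
    · exact hH β e he
  · have hγ : ∀ e ∈ γ.edges, e ∈ (fromEdgeSet ((ω \ armSet (α.transfer G (hG α))
        (β.transfer G (hG β)) : Finset (Sym2 V)) : Set (Sym2 V))).edgeSet := by
      intro e he
      have h5 := γ.edges_subset_edgeSet he
      rw [edgeSet_fromEdgeSet] at h5 ⊢
      refine ⟨?_, h5.2⟩
      simp only [armSet, Finset.coe_sdiff, Set.mem_diff, Finset.mem_coe, Finset.mem_union,
        List.mem_toFinset, Walk.edges_transfer]
      refine ⟨hH γ e he, ?_⟩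
      rintro (h6 | h6)
      · exact (h4 e he).1 h6
      · exact (h4 e he).2 h6
    exact ⟨γ.transfer _ hγ⟩

lemma card_armSet {G : SimpleGraph V} {z x y : V} {α : G.Walk z x} {β : G.Walk z y}
    (h1 : α.edges.Nodup) (h2 : β.edges.Nodup) (h3 : ∀ e ∈ α.edges, e ∉ β.edges) :
    #(armSet α β) = α.length + β.length := by
  unfold armSet
  rw [Finset.card_union_of_disjoint, List.toFinset_card_of_nodup h1,
    List.toFinset_card_of_nodup h2, Walk.length_edges, Walk.length_edges]
  rw [Finset.disjoint_left]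
  intro e he he'
  exact h3 e (List.mem_toFinset.mp he) (List.mem_toFinset.mp he')

lemma edge_of_length_one {G : SimpleGraph V} {u v : V} (α : G.Walk u v) (h : α.length = 1) :
    s(u, v) ∈ α.edges := by
  cases α with
  | nil => simp at h
  | cons h' p =>
    have h0 : p.length = 0 := by simpa using h
    have e := Walk.eq_of_length_eq_zero h0
    subst e
    simp

/-- Conditions on a pair of arms. -/
def Good {G : SimpleGraph V} {z x y : V} (α : G.Walk z x) (β : G.Walk z y)
    (F : Finset (Sym2 V)) : Prop :=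
  α.edges.Nodup ∧ β.edges.Nodup ∧ (∀ e ∈ α.edges, e ∉ β.edges) ∧ armSet α β ⊆ F

lemma Good.two_le {G : SimpleGraph V} {z x y : V} {α : G.Walk z x} {β : G.Walk z y}
    {F : Finset (Sym2 V)} (hg : Good α β F) (hxy : x ≠ y) (he : s(x, y) ∉ F) :
    2 ≤ α.length + β.length := by
  by_contra hlt
  have hα : s(z, x) ∈ α.edges → False := fun h => by
    have : s(z, x) ∈ F := hg.2.2.2 (by simp [armSet, h])
    rw [show z = y by
      have : β.length = 0 := by
        have hl := Walk.length_edges α
        have : 0 < α.length := by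
          rw [← hl]
          exact List.length_pos_iff_exists_mem.mpr ⟨_, h⟩
        omega
      exact Walk.eq_of_length_eq_zero this, Sym2.eq_swap] at this
    exact he this
  have hβ : s(z, y) ∈ β.edges → False := fun h => by
    have : s(z, y) ∈ F := hg.2.2.2 (by simp [armSet, h])
    rw [show z = x by
      have : α.length = 0 := by
        have hl := Walk.length_edges β
        have : 0 < β.length := by
          rw [← hl]
          exact List.length_pos_iff_exists_mem.mpr ⟨_, h⟩
        omega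
      exact Walk.eq_of_length_eq_zero this] at this
    exact he this
  have hcases : (α.length = 0 ∧ β.length = 0) ∨ (α.length = 1 ∧ β.length = 0) ∨
      (α.length = 0 ∧ β.length = 1) := by omega
  rcases hcases with ⟨h1, h2⟩ | ⟨h1, _⟩ | ⟨_, h2⟩
  · exact hxy ((Walk.eq_of_length_eq_zero h1).symm.trans (Walk.eq_of_length_eq_zero h2))
  · exact hα (edge_of_length_one α h1)
  · exact hβ (edge_of_length_one β h2)

/-- Indicator that `o` reaches `z`. -/
noncomputable def gz (o z : V) (ω : Finset (Sym2 V)) : ℝ :=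
  if Conn ω o z then 1 else 0

lemma gz_nonneg (o z : V) (ω : Finset (Sym2 V)) : 0 ≤ gz o z ω := by
  unfold gz; split_ifs <;> norm_num

lemma gz_mono (o z : V) (ω ω' : Finset (Sym2 V)) (h : ω ⊆ ω') : gz o z ω ≤ gz o z ω' := by
  unfold gz
  by_cases h1 : Conn ω o z
  · rw [if_pos h1, if_pos (h1.mono h)]
  · rw [if_neg h1]
    split_ifs <;> norm_num

/-- The term of the union bound attached to a pair of arms. -/
noncomputable def armTerm {G : SimpleGraph V} {z x y : V} (α : G.Walk z x) (β : G.Walk z y)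
    (F : Finset (Sym2 V)) (o : V) (ω : Finset (Sym2 V)) : ℝ :=
  if Good α β F then (if armSet α β ⊆ ω then 1 else 0) * gz o z (ω \ armSet α β) else 0

lemma armTerm_nonneg {G : SimpleGraph V} {z x y : V} (α : G.Walk z x) (β : G.Walk z y)
    (F : Finset (Sym2 V)) (o : V) (ω : Finset (Sym2 V)) : 0 ≤ armTerm α β F o ω := by
  unfold armTerm
  split_ifs
  · simpa using gz_nonneg o z _
  · norm_num
  · norm_num

lemma Ex_subset_le_of_mono {E : Type*} [DecidableEq E] {F' F : Finset E} (h : F' ⊆ F) {p : ℝ}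
    (hp : 0 ≤ p) (hp1 : p ≤ 1) {g : Finset E → ℝ} (hg : ∀ ω ω', ω ⊆ ω' → g ω ≤ g ω') :
    Ex F' p g ≤ Ex F p g := by
  have h1 : F \ (F \ F') = F' := Finset.sdiff_sdiff_eq_self h
  have := Ex_sdiff_le_of_mono (R := F \ F') (F := F) Finset.sdiff_subset hp hp1 hg
  rwa [h1] at this

lemma Ex_armTerm_le {G : SimpleGraph V} {z x y : V} (α : G.Walk z x) (β : G.Walk z y)
    {F' F : Finset (Sym2 V)} (hF : F' ⊆ F) (o : V) {p : ℝ} (hp : 0 ≤ p) (hp1 : p ≤ 1)
    {hxy : x ≠ y} (he : s(x, y) ∉ F') :
    Ex F' p (armTerm α β F' o) ≤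
      if 2 ≤ α.length + β.length then p ^ (α.length + β.length) * Ex F p (gz o z) else 0 := by
  unfold armTerm
  by_cases hg : Good α β F'
  · simp only [if_pos hg]
    rw [if_pos (hg.two_le hxy he)]
    rw [Ex_all_open hg.2.2.2 p (gz o z)]
    rw [card_armSet hg.1 hg.2.1 hg.2.2.1]
    apply mul_le_mul_of_nonneg_left _ (pow_nonneg hp _)
    exact Ex_subset_le_of_mono (Finset.sdiff_subset.trans hF) hp hp1 (gz_mono o z)
  · simp only [if_neg hg]
    rw [Ex_const]
    split_ifs
    · exact mul_nonneg (pow_nonneg hp _) (Ex_nonneg hp hp1 (fun ω _ => gz_nonneg o z ω))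
    · exact le_refl _

variable {G : SimpleGraph V} [G.LocallyFinite]

/-- Number of walks of length `k`. -/
noncomputable def Wk (G : SimpleGraph V) [G.LocallyFinite] (k : ℕ) (x y : V) : ℝ :=
  (#(G.finsetWalkLength k x y) : ℝ)

lemma Wk_nonneg (k : ℕ) (x y : V) : 0 ≤ Wk G k x y := by
  unfold Wk
  positivity

/-- Pointwise union bound over pairs of arms. -/
theorem be_le_sum {T : Finset V} {o : V} (ho : o ∈ T) {x y : V} (n : ℕ)
    (hn : #(EIn G T) ≤ n) (ω : Finset (Sym2 V)) (hω : ω ⊆ (EIn G T).erase s(x, y)) :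
    be ω o x y ≤ ∑ z ∈ T, ∑ a ∈ Finset.range (n + 2), ∑ b ∈ Finset.range (n + 2),
      ∑ α ∈ G.finsetWalkLength a z x, ∑ β ∈ G.finsetWalkLength b z y,
        armTerm α β ((EIn G T).erase s(x, y)) o ω := by
  have hnn : 0 ≤ ∑ z ∈ T, ∑ a ∈ Finset.range (n + 2), ∑ b ∈ Finset.range (n + 2),
      ∑ α ∈ G.finsetWalkLength a z x, ∑ β ∈ G.finsetWalkLength b z y,
        armTerm α β ((EIn G T).erase s(x, y)) o ω := by
    exact Finset.sum_nonneg fun _ _ => Finset.sum_nonneg fun _ _ => Finset.sum_nonneg fun _ _ =>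
      Finset.sum_nonneg fun _ _ => Finset.sum_nonneg fun _ _ => armTerm_nonneg _ _ _ _ _
  unfold be
  split_ifs with h
  swap
  · exact hnn
  obtain ⟨hx, hy⟩ := h
  have hωG : (ω : Set (Sym2 V)) ⊆ G.edgeSet := by
    intro e he
    have he' : e ∈ EIn G T := Finset.mem_of_mem_erase (hω he)
    obtain ⟨u, v, -, -, huv, rfl⟩ := mem_EIn.mp he'
    exact huv
  obtain ⟨z, α, β, h1, h2, h3, h4, h5⟩ := arms_exist hωG hx hy
  have hg : Good α β ((EIn G T).erase s(x, y)) := ⟨h1, h2, h3, h4.trans hω⟩
  have hterm : armTerm α β ((EIn G T).erase s(x, y)) o ω = 1 := by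
    unfold armTerm gz
    rw [if_pos hg, if_pos h4, if_pos h5]
    norm_num
  have hzT : z ∈ T := by
    have hsub : ω \ armSet α β ⊆ EIn G T :=
      Finset.sdiff_subset.trans (hω.trans (Finset.erase_subset _ _))
    exact mem_of_conn_EIn hsub ho h5
  have hcard : #(armSet α β) ≤ n := by
    calc #(armSet α β) ≤ #((EIn G T).erase s(x, y)) := Finset.card_le_card hg.2.2.2
      _ ≤ #(EIn G T) := Finset.card_le_card (Finset.erase_subset _ _)
      _ ≤ n := hn
  rw [card_armSet h1 h2 h3] at hcard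
  rw [← hterm]
  have hα : α ∈ G.finsetWalkLength α.length z x := mem_finsetWalkLength_iff.mpr rfl
  have hβ : β ∈ G.finsetWalkLength β.length z y := mem_finsetWalkLength_iff.mpr rfl
  calc armTerm α β ((EIn G T).erase s(x, y)) o ω
      ≤ ∑ β' ∈ G.finsetWalkLength β.length z y, armTerm α β' ((EIn G T).erase s(x, y)) o ω :=
        Finset.single_le_sum (f := fun β' => armTerm α β' ((EIn G T).erase s(x, y)) o ω)
          (fun _ _ => armTerm_nonneg _ _ _ _ _) hβ
    _ ≤ ∑ α' ∈ G.finsetWalkLength α.length z x, ∑ β' ∈ G.finsetWalkLength β.length z y,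
          armTerm α' β' ((EIn G T).erase s(x, y)) o ω :=
        Finset.single_le_sum (f := fun α' => ∑ β' ∈ G.finsetWalkLength β.length z y,
            armTerm α' β' ((EIn G T).erase s(x, y)) o ω)
          (fun _ _ => Finset.sum_nonneg fun _ _ => armTerm_nonneg _ _ _ _ _) hα
    _ ≤ ∑ b ∈ Finset.range (n + 2), ∑ α' ∈ G.finsetWalkLength α.length z x,
          ∑ β' ∈ G.finsetWalkLength b z y, armTerm α' β' ((EIn G T).erase s(x, y)) o ω :=
        Finset.single_le_sum (f := fun b => ∑ α' ∈ G.finsetWalkLength α.length z x,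
            ∑ β' ∈ G.finsetWalkLength b z y, armTerm α' β' ((EIn G T).erase s(x, y)) o ω)
          (fun _ _ => Finset.sum_nonneg fun _ _ => Finset.sum_nonneg fun _ _ =>
            armTerm_nonneg _ _ _ _ _) (Finset.mem_range.mpr (by omega))
    _ ≤ ∑ a ∈ Finset.range (n + 2), ∑ b ∈ Finset.range (n + 2),
          ∑ α' ∈ G.finsetWalkLength a z x,
          ∑ β' ∈ G.finsetWalkLength b z y, armTerm α' β' ((EIn G T).erase s(x, y)) o ω :=
        Finset.single_le_sum (f := fun a => ∑ b ∈ Finset.range (n + 2),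
            ∑ α' ∈ G.finsetWalkLength a z x,
            ∑ β' ∈ G.finsetWalkLength b z y, armTerm α' β' ((EIn G T).erase s(x, y)) o ω)
          (fun _ _ => Finset.sum_nonneg fun _ _ => Finset.sum_nonneg fun _ _ =>
            Finset.sum_nonneg fun _ _ => armTerm_nonneg _ _ _ _ _)
          (Finset.mem_range.mpr (by omega))
    _ ≤ _ :=
        Finset.single_le_sum (f := fun z => ∑ a ∈ Finset.range (n + 2),
            ∑ b ∈ Finset.range (n + 2), ∑ α' ∈ G.finsetWalkLength a z x,
            ∑ β' ∈ G.finsetWalkLength b z y, armTerm α' β' ((EIn G T).erase s(x, y)) o ω)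
          (fun _ _ => Finset.sum_nonneg fun _ _ => Finset.sum_nonneg fun _ _ =>
            Finset.sum_nonneg fun _ _ => Finset.sum_nonneg fun _ _ => armTerm_nonneg _ _ _ _ _) hzT

/-- Expected connection indicator. -/
noncomputable def tau (G : SimpleGraph V) (T : Finset V) (o z : V) (p : ℝ) : ℝ :=
  Ex (EIn G T) p (gz o z)

lemma tau_nonneg (T : Finset V) (o z : V) {p : ℝ} (hp : 0 ≤ p) (hp1 : p ≤ 1) :
    0 ≤ tau G T o z p :=
  Ex_nonneg hp hp1 (fun ω _ => gz_nonneg o z ω)

theorem bb_le_sum {T : Finset V} {o : V} (ho : o ∈ T) {q : V × V} (hq : q ∈ prs G T) (n : ℕ)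
    (hn : #(EIn G T) ≤ n) {p : ℝ} (hp : 0 ≤ p) (hp1 : p ≤ 1) :
    bb G T o p q ≤ ∑ z ∈ T, ∑ a ∈ Finset.range (n + 2), ∑ b ∈ Finset.range (n + 2),
      Wk G a z q.1 * Wk G b z q.2 *
        (if 2 ≤ a + b then p ^ (a + b) * tau G T o z p else 0) := by
  obtain ⟨-, -, hadj⟩ := mem_prs.mp hq
  have hxy : q.1 ≠ q.2 := hadj.ne
  have he : s(q.1, q.2) ∉ (EIn G T).erase s(q.1, q.2) := Finset.notMem_erase _ _
  unfold bb
  calc Ex ((EIn G T).erase s(q.1, q.2)) p (fun ω => be ω o q.1 q.2)
      ≤ Ex ((EIn G T).erase s(q.1, q.2)) p (fun ω =>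
          ∑ z ∈ T, ∑ a ∈ Finset.range (n + 2), ∑ b ∈ Finset.range (n + 2),
          ∑ α ∈ G.finsetWalkLength a z q.1, ∑ β ∈ G.finsetWalkLength b z q.2,
            armTerm α β ((EIn G T).erase s(q.1, q.2)) o ω) :=
        Ex_mono hp hp1 (fun ω hω => be_le_sum ho n hn ω hω)
    _ ≤ _ := by
        rw [Ex_sum]
        apply Finset.sum_le_sum
        intro z _
        rw [Ex_sum]
        apply Finset.sum_le_sum
        intro a _
        rw [Ex_sum]
        apply Finset.sum_le_sum
        intro b _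
        rw [Ex_sum]
        have hbound : ∀ α ∈ G.finsetWalkLength a z q.1, ∀ β ∈ G.finsetWalkLength b z q.2,
            Ex ((EIn G T).erase s(q.1, q.2)) p (armTerm α β ((EIn G T).erase s(q.1, q.2)) o)
              ≤ if 2 ≤ a + b then p ^ (a + b) * tau G T o z p else 0 := by
          intro α hα β hβ
          have h1 := Ex_armTerm_le α β (Finset.erase_subset s(q.1, q.2) (EIn G T)) o hp hp1
            (hxy := hxy) he
          rw [mem_finsetWalkLength_iff.mp hα, mem_finsetWalkLength_iff.mp hβ] at h1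
          exact h1
        calc ∑ α ∈ G.finsetWalkLength a z q.1,
              Ex ((EIn G T).erase s(q.1, q.2)) p (fun ω =>
                ∑ β ∈ G.finsetWalkLength b z q.2,
                  armTerm α β ((EIn G T).erase s(q.1, q.2)) o ω)
            ≤ ∑ α ∈ G.finsetWalkLength a z q.1, ∑ β ∈ G.finsetWalkLength b z q.2,
                (if 2 ≤ a + b then p ^ (a + b) * tau G T o z p else 0) := by
              apply Finset.sum_le_sum
              intro α hα
              rw [Ex_sum]
              exact Finset.sum_le_sum (fun β hβ => hbound α hα β hβ)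
          _ = Wk G a z q.1 * Wk G b z q.2 *
                (if 2 ≤ a + b then p ^ (a + b) * tau G T o z p else 0) := by
              simp only [Finset.sum_const, nsmul_eq_mul, Wk]
              ring

end Vale.Agent.Lib.P165
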