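import Vale.Agent.Lib.P165.Link

/-!
Lower bound on the uniqueness threshold: below the inverse of the adjacency norm there is
never almost surely exactly one infinite cluster on a transitive graph.
-/

namespace Vale.Agent.Lib.P165

open Finset SimpleGraph MeasureTheory ProbabilityTheory unitInterval
open scoped Classical ENNReal

set_option linter.unusedSectionVars false

variable {V : Type*} {G : SimpleGraph V} [G.LocallyFinite]

/-! ### Invariance under automorphisms -/

lemma Ex_image {E : Type*} [DecidableEq E] (e : E → E) (he : Function.Injective e)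
    (F : Finset E) (p : ℝ) (f : Finset E → ℝ) :
    Ex (F.image e) p f = Ex F p (fun S => f (S.image e)) := by
  induction F using Finset.induction_on generalizing f with
  | empty => simp
  | insert a F ha ih =>
    rw [Finset.image_insert, Ex_insert (fun h => ha (he.mem_finset_image.mp h)),
      Ex_insert ha, ih, ih]
    simp only [Finset.image_insert]

lemma Conn_image {S : Finset (Sym2 V)} (φ : G ≃g G) {a b : V} (h : Conn S a b) :
    Conn (S.image (Sym2.map φ)) (φ a) (φ b) := by
  refine Conn.induct (S := fun v => Conn (S.image (Sym2.map φ)) (φ a) (φ v)) ?_ h (Conn.refl _ _)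
  intro u v huv hu
  refine hu.trans (Conn.of_mem ?_)
  exact Finset.mem_image.mpr ⟨_, huv, rfl⟩

lemma Conn_image_iff {S : Finset (Sym2 V)} (φ : G ≃g G) {a b : V} :
    Conn (S.image (Sym2.map φ)) (φ a) (φ b) ↔ Conn S a b := by
  refine ⟨fun h => ?_, Conn_image φ⟩
  have h1 := Conn_image φ.symm h
  have hmap : ∀ e : Sym2 V, Sym2.map φ.symm (Sym2.map φ e) = e := by
    intro e
    induction e using Sym2.ind with
    | _ u v => simp
  have e1 : (S.image (Sym2.map φ)).image (Sym2.map φ.symm) = S := by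
    ext e
    simp only [Finset.mem_image]
    constructor
    · rintro ⟨_, ⟨f, hf, rfl⟩, rfl⟩
      rwa [hmap]
    · intro he
      exact ⟨Sym2.map φ e, ⟨e, he, rfl⟩, hmap e⟩
  rw [e1] at h1
  simpa using h1

lemma Ext_image_iff {S : Finset (Sym2 V)} {B : Finset V} (φ : G ≃g G) {x : V} :
    Ext (S.image (Sym2.map φ)) (B.image φ) (φ x) ↔ Ext S B x := by
  constructor
  · rintro ⟨y, hy, hc⟩
    refine ⟨φ.symm y, fun h => hy ?_, ?_⟩
    · exact Finset.mem_image.mpr ⟨_, h, by simp⟩
    · rw [← Conn_image_iff φ]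
      simpa using hc
  · rintro ⟨y, hy, hc⟩
    refine ⟨φ y, fun h => hy ?_, (Conn_image_iff φ).mpr hc⟩
    obtain ⟨y', hy', e⟩ := Finset.mem_image.mp h
    have := φ.injective e
    exact this ▸ hy'

lemma neighborFinset_image (φ : G ≃g G) (w : V) :
    (G.neighborFinset w).image φ = G.neighborFinset (φ w) := by
  ext y
  simp only [Finset.mem_image, mem_neighborFinset]
  constructor
  · rintro ⟨x, hx, rfl⟩
    exact φ.map_rel_iff.mpr hx
  · intro h
    refine ⟨φ.symm y, ?_, by simp⟩
    apply φ.map_rel_iff.mp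
    simpa using h

lemma ball_image (φ : G ≃g G) (z : V) (k : ℕ) :
    (ball G z k).image φ = ball G (φ z) k := by
  induction k with
  | zero => simp [ball]
  | succ k ih =>
    simp only [ball]
    rw [← ih, Finset.image_biUnion, Finset.biUnion_image]
    apply Finset.biUnion_congr rfl
    intro w _
    exact neighborFinset_image φ w

lemma ballUp_image (φ : G ≃g G) (z : V) (n : ℕ) :
    (ballUp G z n).image φ = ballUp G (φ z) n := by
  unfold ballUp
  rw [Finset.biUnion_image]
  apply Finset.biUnion_congr rfl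
  intro k _
  exact ball_image φ z k

lemma ETouch_image (φ : G ≃g G) (B : Finset V) :
    ETouch G (B.image φ) = (ETouch G B).image (Sym2.map φ) := by
  ext e
  simp only [mem_ETouch, Finset.mem_image]
  constructor
  · rintro ⟨x, hx, y, hxy, rfl⟩
    obtain ⟨x', hx', rfl⟩ := hx
    refine ⟨s(x', φ.symm y), ⟨x', hx', _, ?_, rfl⟩, by simp⟩
    apply φ.map_rel_iff.mp
    simpa using hxy
  · rintro ⟨_, ⟨x, hx, y, hxy, rfl⟩, rfl⟩
    exact ⟨φ x, ⟨x, hx, rfl⟩, φ y, φ.map_rel_iff.mpr hxy, by simp⟩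

lemma thetaB_image (φ : G ≃g G) (B : Finset V) (x : V) (p : ℝ) :
    thetaB G (B.image φ) (φ x) p = thetaB G B x p := by
  unfold thetaB
  rw [ETouch_image, Ex_image _ (Sym2.map.injective φ.injective)]
  apply Ex_congr
  intro S _
  unfold fB
  simp only [Ext_image_iff]

lemma perc_InfEv_image (φ : G ≃g G) (x : V) (p : I) :
    percMeasure G p (InfEv G (φ x)) = percMeasure G p (InfEv G x) := by
  rw [perc_InfEv, perc_InfEv]
  congr 1
  funext n
  rw [← ballUp_image, thetaB_image]

/-! ### Two-point function -/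

/-- The event that `x` and `y` are joined by open edges. -/
def ConnEv (G : SimpleGraph V) (x y : V) : Set (Set (Sym2 V)) :=
  {ω | (openGraph G ω).Reachable x y}

lemma geom_le {q : ℝ} (hq : 0 ≤ q) (hq1 : q < 1) (n : ℕ) :
    ∑ k ∈ Finset.range n, q ^ k ≤ 1 / (1 - q) := by
  have h1q : 0 < 1 - q := by linarith
  rw [le_div_iff₀ h1q]
  have h2 : (1 - q) * ∑ k ∈ Finset.range n, q ^ k = 1 - q ^ n := mul_neg_geom_sum q n
  have h3 : 0 ≤ q ^ n := pow_nonneg hq _
  nlinarith

lemma sum_tail_le {q : ℝ} (hq : 0 ≤ q) (hq1 : q < 1) (N R : ℕ) :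
    ∑ k ∈ Finset.range N, (if k ≤ R then 0 else q ^ k) ≤ q ^ (R + 1) / (1 - q) := by
  have h1 : (Finset.range N).filter (fun k => ¬ k ≤ R) = Finset.Ico (R + 1) N := by
    ext k
    simp only [Finset.mem_filter, Finset.mem_range, Finset.mem_Ico]
    omega
  have h2 : ∑ k ∈ Finset.range N, (if k ≤ R then 0 else q ^ k)
      = ∑ k ∈ (Finset.range N).filter (fun k => ¬ k ≤ R), q ^ k := by
    rw [Finset.sum_filter]
    apply Finset.sum_congr rfl
    intro k _
    by_cases h : k ≤ R <;> simp [h]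
  rw [h2, h1, Finset.sum_Ico_eq_sum_range]
  have h3 : ∑ i ∈ Finset.range (N - (R + 1)), q ^ (R + 1 + i)
      = q ^ (R + 1) * ∑ i ∈ Finset.range (N - (R + 1)), q ^ i := by
    rw [Finset.mul_sum]
    apply Finset.sum_congr rfl
    intro i _
    rw [pow_add]
  rw [h3, div_eq_mul_one_div]
  exact mul_le_mul_of_nonneg_left (geom_le hq hq1 _) (pow_nonneg hq _)

/-- Union bound over open paths. -/
theorem Ex_conn_le {F : Finset (Sym2 V)} (hF : (F : Set (Sym2 V)) ⊆ G.edgeSet) {p : ℝ}
    (hp : 0 ≤ p) (hp1 : p ≤ 1) (x y : V) :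
    Ex F p (fun S => if Conn S x y then 1 else 0)
      ≤ ∑ k ∈ Finset.range (#F + 1), Wk G k x y * p ^ k := by
  have hpt : ∀ S, S ⊆ F → (if Conn S x y then (1 : ℝ) else 0)
      ≤ ∑ k ∈ Finset.range (#F + 1), ∑ α ∈ G.finsetWalkLength k x y,
          (if α.edges.Nodup ∧ α.edges.toFinset ⊆ F then
            (if α.edges.toFinset ⊆ S then 1 else 0) * 1 else 0) := by
    intro S hS
    have hnn : ∀ α : G.Walk x y, (0 : ℝ) ≤ (if α.edges.Nodup ∧ α.edges.toFinset ⊆ F then
            (if α.edges.toFinset ⊆ S then 1 else 0) * 1 else 0) := by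
      intro α
      split_ifs <;> norm_num
    split_ifs with hc
    · obtain ⟨π, hπ⟩ := Reachable.exists_isPath hc
      have hsub : ∀ e ∈ π.edges, e ∈ S := by
        intro e he
        have := π.edges_subset_edgeSet he
        rw [edgeSet_fromEdgeSet] at this
        exact_mod_cast this.1
      have hG : ∀ e ∈ π.edges, e ∈ G.edgeSet := fun e he => hF (by exact_mod_cast hS (hsub e he))
      set α := π.transfer G hG with hα
      have hα1 : α.edges = π.edges := Walk.edges_transfer _ _
      have hnd : α.edges.Nodup := by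
        rw [hα1]
        exact hπ.isTrail.edges_nodup
      have hαS : α.edges.toFinset ⊆ S := by
        intro e he
        rw [List.mem_toFinset, hα1] at he
        exact hsub e he
      have hlen : α.length ≤ #F := by
        have h1 := List.toFinset_card_of_nodup hnd
        rw [Walk.length_edges] at h1
        rw [← h1]
        exact Finset.card_le_card (hαS.trans hS)
      have hterm : (if α.edges.Nodup ∧ α.edges.toFinset ⊆ F then
          (if α.edges.toFinset ⊆ S then (1 : ℝ) else 0) * 1 else 0) = 1 := by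
        rw [if_pos ⟨hnd, hαS.trans hS⟩, if_pos hαS]
        norm_num
      calc (1 : ℝ) = (if α.edges.Nodup ∧ α.edges.toFinset ⊆ F then
            (if α.edges.toFinset ⊆ S then (1 : ℝ) else 0) * 1 else 0) := hterm.symm
        _ ≤ ∑ α' ∈ G.finsetWalkLength α.length x y,
            (if α'.edges.Nodup ∧ α'.edges.toFinset ⊆ F then
              (if α'.edges.toFinset ⊆ S then (1 : ℝ) else 0) * 1 else 0) :=
            Finset.single_le_sum (f := fun α' : G.Walk x y =>
              (if α'.edges.Nodup ∧ α'.edges.toFinset ⊆ F then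
                (if α'.edges.toFinset ⊆ S then (1 : ℝ) else 0) * 1 else 0))
              (fun α' _ => hnn α') (mem_finsetWalkLength_iff.mpr rfl)
        _ ≤ _ := Finset.single_le_sum (f := fun k => ∑ α' ∈ G.finsetWalkLength k x y,
              (if α'.edges.Nodup ∧ α'.edges.toFinset ⊆ F then
                (if α'.edges.toFinset ⊆ S then (1 : ℝ) else 0) * 1 else 0))
              (fun k _ => Finset.sum_nonneg (fun α' _ => hnn α'))
              (Finset.mem_range.mpr (by omega))
    · exact Finset.sum_nonneg (fun k _ => Finset.sum_nonneg (fun α' _ => hnn α'))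
  refine (Ex_mono hp hp1 hpt).trans ?_
  rw [Ex_sum]
  apply Finset.sum_le_sum
  intro k _
  rw [Ex_sum]
  have hbound : ∀ α ∈ G.finsetWalkLength k x y,
      Ex F p (fun S => (if α.edges.Nodup ∧ α.edges.toFinset ⊆ F then
        (if α.edges.toFinset ⊆ S then 1 else 0) * 1 else 0)) ≤ p ^ k := by
    intro α hα
    have hlen : α.length = k := mem_finsetWalkLength_iff.mp hα
    split_ifs with h
    · have h1 := Ex_all_open h.2 p (fun _ => (1 : ℝ))
      rw [h1, Ex_one, mul_one, List.toFinset_card_of_nodup h.1, Walk.length_edges, hlen]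
    · rw [Ex_const]
      exact pow_nonneg hp _
  calc _ ≤ ∑ α ∈ G.finsetWalkLength k x y, p ^ k := Finset.sum_le_sum hbound
    _ = Wk G k x y * p ^ k := by
      simp only [Finset.sum_const, nsmul_eq_mul, Wk]

theorem Ex_conn_le_tail {F : Finset (Sym2 V)} (hF : (F : Set (Sym2 V)) ⊆ G.edgeSet) {L : ℝ}
    (hL : NormBound G L) (hL0 : 0 ≤ L) {p : ℝ} (hp : 0 ≤ p) (hp1 : p ≤ 1) (hq : p * L < 1)
    {x y : V} {R : ℕ} (hR : ∀ k ≤ R, Wk G k x y = 0) :
    Ex F p (fun S => if Conn S x y then 1 else 0) ≤ (p * L) ^ (R + 1) / (1 - p * L) := by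
  refine (Ex_conn_le hF hp hp1 x y).trans ?_
  refine le_trans ?_ (sum_tail_le (mul_nonneg hp hL0) hq (#F + 1) R)
  apply Finset.sum_le_sum
  intro k _
  by_cases h : k ≤ R
  · rw [if_pos h, hR k h]
    simp
  · rw [if_neg h, mul_pow, mul_comm]
    exact mul_le_mul_of_nonneg_left (Wk_le_pow hL hL0 k x y) (pow_nonneg hp _)

lemma ConnEv_eq (x y : V) :
    ConnEv G x y = ⋃ n, {ω | Conn (tr (ETouch G (ballUp G x n)) ω) x y} := by
  ext ω
  simp only [ConnEv, Set.mem_iUnion, Set.mem_ofPred_eq]
  constructor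
  · rintro ⟨w⟩
    suffices H : ∀ (a b : V) (w : (openGraph G ω).Walk a b) (m : ℕ), a ∈ ballUp G x m →
        ∃ n, m ≤ n ∧ Conn (tr (ETouch G (ballUp G x n)) ω) a b by
      obtain ⟨n, _, h⟩ := H x y w 0 (center_mem_ballUp x 0)
      exact ⟨n, h⟩
    intro a b w
    induction w with
    | nil => exact fun m _ => ⟨m, le_rfl, Conn.refl _ _⟩
    | @cons a b c hab w ih =>
      intro m hm
      obtain ⟨h1, h2⟩ := openGraph_adj.mp hab
      obtain ⟨n, hn, hc⟩ := ih (m + 1) (mem_ballUp_succ hm h2)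
      refine ⟨n, by omega, Conn.trans (Conn.of_mem ?_) hc⟩
      refine Finset.mem_filter.mpr ⟨?_, h1⟩
      exact mem_ETouch.mpr ⟨a, ballUp_mono x (by omega) hm, b, h2, rfl⟩
  · rintro ⟨n, hn⟩
    exact reachable_of_conn_tr (ETouch_subset_edgeSet _) hn

lemma measurableSet_ConnEv (x y : V) : MeasurableSet (ConnEv G x y) := by
  rw [ConnEv_eq]
  exact MeasurableSet.iUnion (fun n => measurableSet_cyl _ (fun S => Conn S x y))

theorem perc_ConnEv_le {L : ℝ} (hL : NormBound G L) (hL0 : 0 ≤ L) (p : I)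
    (hq : (p : ℝ) * L < 1) {x y : V} {R : ℕ} (hR : ∀ k ≤ R, Wk G k x y = 0) :
    percMeasure G p (ConnEv G x y) ≤ ENNReal.ofReal (((p : ℝ) * L) ^ (R + 1) / (1 - (p : ℝ) * L)) := by
  rw [ConnEv_eq]
  have hmono : Monotone (fun n => {ω : Set (Sym2 V) | Conn (tr (ETouch G (ballUp G x n)) ω) x y}) := by
    intro m n hmn ω hω
    exact Conn.mono (tr_mono (ETouch_mono (ballUp_mono x hmn)) ω) hω
  rw [hmono.measure_iUnion]
  apply iSup_le
  intro n
  rw [perc_cyl (ETouch_subset_edgeSet _) p (fun S => Conn S x y)]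
  apply ENNReal.ofReal_le_ofReal
  exact Ex_conn_le_tail (ETouch_subset_edgeSet _) hL hL0 p.2.1 p.2.2 hq hR

/-! ### Consequences of uniqueness -/

lemma uniq_conn {ω : Set (Sym2 V)} (h : numInfClusters G ω = 1) {x y : V}
    (hx : ω ∈ InfEv G x) (hy : ω ∈ InfEv G y) : ω ∈ ConnEv G x y := by
  obtain ⟨c, hc⟩ := Set.encard_eq_one.mp h
  have h1 : (openGraph G ω).connectedComponentMk x = c := by
    have : (openGraph G ω).connectedComponentMk x ∈
        {c : (openGraph G ω).ConnectedComponent | c.supp.Infinite} := hx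
    rw [hc] at this
    exact this
  have h2 : (openGraph G ω).connectedComponentMk y = c := by
    have : (openGraph G ω).connectedComponentMk y ∈
        {c : (openGraph G ω).ConnectedComponent | c.supp.Infinite} := hy
    rw [hc] at this
    exact this
  exact ConnectedComponent.exact (h1.trans h2.symm)

lemma uniq_exists {ω : Set (Sym2 V)} (h : numInfClusters G ω = 1) : ∃ x, ω ∈ InfEv G x := by
  obtain ⟨c, hc⟩ := Set.encard_eq_one.mp h
  have h1 : c ∈ {c : (openGraph G ω).ConnectedComponent | c.supp.Infinite} := by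
    rw [hc]
    rfl
  obtain ⟨x, rfl⟩ := c.exists_rep
  exact ⟨x, h1⟩

lemma exists_far_set [Infinite V] (R : ℕ) (m : ℕ) :
    ∃ Y : Finset V, #Y = m ∧ ∀ y ∈ Y, ∀ y' ∈ Y, y ≠ y' → ∀ k ≤ R, Wk G k y y' = 0 := by
  induction m with
  | zero => exact ⟨∅, rfl, by simp⟩
  | succ m ih =>
    obtain ⟨Y, hY, hfar⟩ := ih
    obtain ⟨z, hz⟩ := Infinite.exists_notMem_finset (Y.biUnion (fun y => ballUp G y R))
    have hzY : z ∉ Y := by
      intro h
      exact hz (Finset.mem_biUnion.mpr ⟨z, h, center_mem_ballUp z R⟩)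
    have hzfar : ∀ y ∈ Y, ∀ k ≤ R, Wk G k y z = 0 := by
      intro y hy k hk
      apply Wk_eq_zero_of_notMem
      intro h
      apply hz
      refine Finset.mem_biUnion.mpr ⟨y, hy, ?_⟩
      exact Finset.mem_biUnion.mpr ⟨k, Finset.mem_range.mpr (by omega), h⟩
    refine ⟨insert z Y, by rw [Finset.card_insert_of_notMem hzY, hY], ?_⟩
    intro y hy y' hy' hne k hk
    rcases Finset.mem_insert.mp hy with rfl | hy1
    · rcases Finset.mem_insert.mp hy' with rfl | hy2
      · exact absurd rfl hne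
      · rw [Wk_comm]
        exact hzfar y' hy2 k hk
    · rcases Finset.mem_insert.mp hy' with rfl | hy2
      · exact hzfar y hy1 k hk
      · exact hfar y hy1 y' hy2 hne k hk

lemma countable_of_connected (hconn : G.Connected) : Countable V := by
  obtain ⟨o⟩ := hconn.nonempty
  have h : (Set.univ : Set V) = ⋃ n, ((ballUp G o n : Finset V) : Set V) := by
    ext y
    simp only [Set.mem_univ, Set.mem_iUnion, Finset.mem_coe, true_iff]
    exact exists_mem_ballUp_of_reachable (hconn.preconnected o y)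
  have h2 : (Set.univ : Set V).Countable := by
    rw [h]
    exact Set.countable_iUnion (fun n => (ballUp G o n).countable_toSet)
  exact Set.countable_univ_iff.mp h2

/-- Below the inverse of the adjacency norm there is no almost sure uniqueness. -/
theorem not_uniq [Infinite V] (hconn : G.Connected) (htrans : ∀ x y, ∃ φ : G ≃g G, φ x = y)
    {L : ℝ} (hL : NormBound G L) (hL0 : 0 ≤ L) (p : I) (hq : (p : ℝ) * L < 1) :
    percMeasure G p {ω | numInfClusters G ω = 1} ≠ 1 := by
  intro hU
  have hprob := isProb_perc (G := G) p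
  have hcount := countable_of_connected hconn
  set μ := percMeasure G p with hμ
  set U : Set (Set (Sym2 V)) := {ω | numInfClusters G ω = 1} with hUdef
  -- some vertex lies in an infinite cluster with positive probability
  have hpos : ∃ x, μ (InfEv G x) ≠ 0 := by
    by_contra hall
    push Not at hall
    have h1 : μ (⋃ x, InfEv G x) = 0 := measure_iUnion_null hall
    have h2 : U ⊆ ⋃ x, InfEv G x := by
      intro ω hω
      exact Set.mem_iUnion.mpr (uniq_exists hω)
    have h3 : μ U = 0 := measure_mono_null h2 h1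
    rw [h3] at hU
    exact zero_ne_one hU
  obtain ⟨x₀, hx₀⟩ := hpos
  set θ := μ.real (InfEv G x₀) with hθ
  have hθpos : 0 < θ := by
    rw [hθ, measureReal_def]
    exact ENNReal.toReal_pos hx₀ (measure_ne_top _ _)
  have hinv : ∀ y, μ.real (InfEv G y) = θ := by
    intro y
    obtain ⟨φ, rfl⟩ := htrans x₀ y
    rw [hθ, measureReal_def, measureReal_def, hμ, perc_InfEv_image]
  obtain ⟨m, hm⟩ := exists_nat_gt (2 / θ)
  have hm' : 2 < (m : ℝ) * θ := by
    rwa [div_lt_iff₀ hθpos] at hm
  have hq0 : 0 ≤ (p : ℝ) * L := mul_nonneg p.2.1 hL0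
  have h1q : 0 < 1 - (p : ℝ) * L := by linarith
  set ε : ℝ := θ / (2 * ((m : ℝ) ^ 2 + 1)) with hε
  have hεpos : 0 < ε := by positivity
  obtain ⟨R, hR⟩ := exists_pow_lt_of_lt_one (mul_pos hεpos h1q) hq
  have hR' : ((p : ℝ) * L) ^ (R + 1) / (1 - (p : ℝ) * L) < ε := by
    rw [div_lt_iff₀ h1q]
    have h2 : ((p : ℝ) * L) ^ (R + 1) ≤ ((p : ℝ) * L) ^ R :=
      pow_le_pow_of_le_one hq0 hq.le (Nat.le_succ R)
    linarith
  obtain ⟨Y, hY, hfar⟩ := exists_far_set (G := G) R m
  -- the bad events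
  have hconnsmall : ∀ y ∈ Y, ∀ y' ∈ Y, y ≠ y' → μ.real (ConnEv G y y') ≤ ε := by
    intro y hy y' hy' hne
    have h1 := perc_ConnEv_le hL hL0 p hq (hfar y hy y' hy' hne)
    have h2 : μ.real (ConnEv G y y') ≤ ((p : ℝ) * L) ^ (R + 1) / (1 - (p : ℝ) * L) := by
      rw [measureReal_def]
      exact ENNReal.toReal_le_of_le_ofReal (by positivity) h1
    exact h2.trans hR'.le
  set Bad : Set (Set (Sym2 V)) :=
    ⋃ y ∈ Y, ⋃ y' ∈ Y.erase y, ConnEv G y y' with hBad
  have hBadle : μ.real Bad ≤ θ / 2 := by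
    have h1 : μ.real Bad ≤ ∑ y ∈ Y, ∑ y' ∈ Y.erase y, μ.real (ConnEv G y y') := by
      rw [hBad]
      refine (measureReal_biUnion_finset_le _ _).trans ?_
      apply Finset.sum_le_sum
      intro y _
      exact measureReal_biUnion_finset_le _ _
    have h2 : ∑ y ∈ Y, ∑ y' ∈ Y.erase y, μ.real (ConnEv G y y') ≤ (m : ℝ) ^ 2 * ε := by
      calc _ ≤ ∑ y ∈ Y, ∑ y' ∈ Y.erase y, ε := by
            apply Finset.sum_le_sum
            intro y hy
            apply Finset.sum_le_sum
            intro y' hy'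
            exact hconnsmall y hy y' (Finset.mem_of_mem_erase hy') (Ne.symm (Finset.ne_of_mem_erase hy'))
        _ ≤ ∑ y ∈ Y, (m : ℝ) * ε := by
            apply Finset.sum_le_sum
            intro y _
            rw [Finset.sum_const, nsmul_eq_mul]
            apply mul_le_mul_of_nonneg_right _ hεpos.le
            have : #(Y.erase y) ≤ #Y := Finset.card_le_card (Finset.erase_subset _ _)
            rw [hY] at this
            exact_mod_cast this
        _ = (m : ℝ) ^ 2 * ε := by
            rw [Finset.sum_const, nsmul_eq_mul, hY]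
            ring
    have h3 : (m : ℝ) ^ 2 * ε ≤ θ / 2 := by
      rw [hε]
      have hm2 : (0 : ℝ) ≤ (m : ℝ) ^ 2 := by positivity
      rw [show (m : ℝ) ^ 2 * (θ / (2 * ((m : ℝ) ^ 2 + 1))) = (θ / 2) * ((m : ℝ) ^ 2 / ((m : ℝ) ^ 2 + 1)) by
        field_simp]
      have h4 : (m : ℝ) ^ 2 / ((m : ℝ) ^ 2 + 1) ≤ 1 := by
        rw [div_le_one (by positivity)]
        linarith
      have h5 : 0 ≤ θ / 2 := by positivity
      nlinarith
    linarith
  have hBadmeas : MeasurableSet Bad :=
    Finset.measurableSet_biUnion _ (fun y _ =>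
      Finset.measurableSet_biUnion _ (fun y' _ => measurableSet_ConnEv y y'))
  -- the null event where uniqueness fails on Y
  set Z : Set (Set (Sym2 V)) :=
    ⋃ y ∈ Y, ⋃ y' ∈ Y, (InfEv G y ∩ InfEv G y') \ ConnEv G y y' with hZ
  have hZmeas : MeasurableSet Z :=
    Finset.measurableSet_biUnion _ (fun y _ =>
      Finset.measurableSet_biUnion _ (fun y' _ =>
        ((measurableSet_InfEv y).inter (measurableSet_InfEv y')).diff (measurableSet_ConnEv y y')))
  have hZnull : μ.real Z = 0 := by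
    have hsub : U ⊆ Zᶜ := by
      intro ω hω hωZ
      simp only [hZ, Set.mem_iUnion, Set.mem_sdiff, Set.mem_inter_iff, exists_prop] at hωZ
      obtain ⟨y, _, y', _, ⟨h1, h2⟩, h3⟩ := hωZ
      exact h3 (uniq_conn hω h1 h2)
    have h1 : μ Zᶜ = 1 := by
      apply le_antisymm prob_le_one
      rw [← hU]
      exact measure_mono hsub
    have h2 : μ Z = 0 := by
      have := (prob_compl_eq_zero_iff hZmeas.compl).mpr h1
      rwa [compl_compl] at this
    rw [measureReal_def, h2]
    rfl
  -- the disjoint pieces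
  set Gd : V → Set (Set (Sym2 V)) := fun y => (InfEv G y \ Bad) \ Z with hGd
  have hGdmeas : ∀ y, MeasurableSet (Gd y) :=
    fun y => ((measurableSet_InfEv y).diff hBadmeas).diff hZmeas
  have hdisj : Set.PairwiseDisjoint (Y : Set V) Gd := by
    intro y hy y' hy' hne
    simp only [Function.onFun]
    rw [Set.disjoint_left]
    rintro ω ⟨⟨h1, h2⟩, h3⟩ ⟨⟨h4, _⟩, _⟩
    have hconn' : ω ∈ ConnEv G y y' := by
      by_contra hn
      apply h3
      simp only [hZ, Set.mem_iUnion, Set.mem_sdiff, Set.mem_inter_iff, exists_prop]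
      exact ⟨y, hy, y', hy', ⟨h1, h4⟩, hn⟩
    apply h2
    simp only [hBad, Set.mem_iUnion, exists_prop]
    exact ⟨y, hy, y', Finset.mem_erase.mpr ⟨Ne.symm hne, hy'⟩, hconn'⟩
  have hsum : ∑ y ∈ Y, μ.real (Gd y) ≤ 1 := by
    rw [← measureReal_biUnion_finset hdisj (fun y _ => hGdmeas y)]
    exact measureReal_le_one
  have hpiece : ∀ y, θ ≤ μ.real (Gd y) + θ / 2 := by
    intro y
    have hsub : InfEv G y ⊆ (Gd y ∪ Bad) ∪ Z := by
      intro ω hω
      by_cases h1 : ω ∈ Z
      · exact Or.inr h1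
      · by_cases h2 : ω ∈ Bad
        · exact Or.inl (Or.inr h2)
        · exact Or.inl (Or.inl ⟨⟨hω, h2⟩, h1⟩)
    have h1 : μ.real (InfEv G y) ≤ μ.real ((Gd y ∪ Bad) ∪ Z) := measureReal_mono hsub
    have h2 := measureReal_union_le (μ := μ) (Gd y ∪ Bad) Z
    have h3 := measureReal_union_le (μ := μ) (Gd y) Bad
    rw [hinv y] at h1
    linarith
  have hfinal : (m : ℝ) * θ ≤ 1 + (m : ℝ) * (θ / 2) := by
    calc (m : ℝ) * θ = ∑ y ∈ Y, θ := by
          rw [Finset.sum_const, nsmul_eq_mul, hY]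
      _ ≤ ∑ y ∈ Y, (μ.real (Gd y) + θ / 2) := Finset.sum_le_sum (fun y _ => hpiece y)
      _ = ∑ y ∈ Y, μ.real (Gd y) + (m : ℝ) * (θ / 2) := by
          rw [Finset.sum_add_distrib, Finset.sum_const, nsmul_eq_mul, hY]
      _ ≤ _ := by linarith
  nlinarith

end Vale.Agent.Lib.P165
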